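import Vale.Agent.P167.H318.Base
import Vale.Agent.P167.H558.Stop3

/-!
# P167, block NSYM: Markov property in terms of states

* `Dep K G`: `G` depends on the squares of `K` only; measurable, bounded, integrable.
* `cf_glue`, `int_stop`, `E_stop`: resampling off a stopping set is the state `rv`.
* `stopSet_RV`: the exploration until the strand enters `A` is a stopping set; `RV_*` describe the
  new state.
-/

namespace Vale.Agent.P167.H318

open Vale.Agent.P167 Vale.Agent.P167.H192 Vale.Agent.P145.FB Vale.Agent.P167.H558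
open MeasureTheory Relation

/-! ### dependence on finitely many squares -/

/-- `G` depends on the squares of `K` only -/
def Dep {α : Type*} (K : Finset (ℤ × ℤ)) (G : Cfg → α) : Prop :=
  ∀ ω ω' : Cfg, (∀ q ∈ K, ω q = ω' q) → G ω = G ω'

open Classical in
theorem Dep.factor {α : Type*} {K : Finset (ℤ × ℤ)} {G : Cfg → α} (h : Dep K G) :
    ∃ g : (K → Bool) → α, G = g ∘ fun ω (q : K) => ω q.1 := by
  refine ⟨fun r => G fun q => if hq : q ∈ K then r ⟨q, hq⟩ else false, ?_⟩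
  funext ω
  refine h _ _ fun q hq => ?_
  simp [hq]

theorem Dep.measurable {α : Type*} [MeasurableSpace α] {K : Finset (ℤ × ℤ)} {G : Cfg → α}
    (h : Dep K G) : Measurable G := by
  obtain ⟨g, rfl⟩ := h.factor
  exact (measurable_of_finite g).comp (measurable_pi_lambda _ fun q => measurable_pi_apply q.1)

theorem Dep.bdd {K : Finset (ℤ × ℤ)} {G : Cfg → ℝ} (h : Dep K G) : ∃ C, ∀ ω, |G ω| ≤ C := by
  obtain ⟨g, rfl⟩ := h.factor
  obtain ⟨C, hC⟩ := (Set.finite_range fun r => |g r|).bddAbove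
  exact ⟨C, fun ω => hC ⟨_, rfl⟩⟩

theorem Dep.integrable {K : Finset (ℤ × ℤ)} {G : Cfg → ℝ} (h : Dep K G) : Integrable G μ := by
  obtain ⟨C, hC⟩ := h.bdd
  exact Integrable.of_bound h.measurable.aestronglyMeasurable C (ae_of_all _ fun ω => hC ω)

theorem Dep.measurableSet {K : Finset (ℤ × ℤ)} {A : Set Cfg} (h : Dep K fun ω => ω ∈ A) :
    MeasurableSet A := by
  have : Measurable fun ω => ω ∈ A := h.measurable
  exact measurableSet_setOfPred.2 this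

theorem Dep.mono {α : Type*} {K K' : Finset (ℤ × ℤ)} {G : Cfg → α} (h : Dep K G) (hK : K ⊆ K') :
    Dep K' G := fun ω ω' h' => h ω ω' fun q hq => h' q (hK hq)

theorem Dep.comp {α β : Type*} {K : Finset (ℤ × ℤ)} {G : Cfg → α} (h : Dep K G) (f : α → β) :
    Dep K fun ω => f (G ω) := fun ω ω' h' => by
  show f (G ω) = f (G ω')
  rw [h ω ω' h']

theorem Dep.comp₂ {α β γ : Type*} {K : Finset (ℤ × ℤ)} {G : Cfg → α} {G' : Cfg → β}
    (h : Dep K G) (h' : Dep K G') (f : α → β → γ) : Dep K fun ω => f (G ω) (G' ω) :=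
  fun ω ω' hω => by
    show f (G ω) (G' ω) = f (G ω') (G' ω')
    rw [h ω ω' hω, h' ω ω' hω]

/-- functions of the full configuration depend on the fresh squares -/
theorem dep_ov {α : Type*} (F : Finset (ℤ × ℤ)) (z : Cfg) (Φ : Cfg → α) :
    Dep F fun ω => Φ (ov F z ω) := by
  intro ω ω' h
  have : ov F z ω = ov F z ω' := by
    funext q
    by_cases hq : q ∈ F
    · rw [ov_mem hq, ov_mem hq, h q hq]
    · rw [ov_notMem hq, ov_notMem hq]
  show Φ _ = Φ _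
  rw [this]

theorem dep_cf (S : St) {α : Type*} (Φ : Cfg → α) : Dep S.F fun ω => Φ (S.cf ω) :=
  dep_ov S.F S.z Φ

/-- the mirror image of a finite set of squares -/
def mF (c : ℤ) (K : Finset (ℤ × ℤ)) : Finset (ℤ × ℤ) := K.image (mQ c)

theorem Dep.mC {α : Type*} {K : Finset (ℤ × ℤ)} {G : Cfg → α} (h : Dep K G) (c : ℤ) :
    Dep (mF c K) fun ω => G (mC c ω) := by
  intro ω ω' h'
  refine h _ _ fun q hq => ?_
  show (!ω (mQ c q)) = !ω' (mQ c q)
  rw [h' _ (Finset.mem_image_of_mem _ hq)]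

/-! ### resampling -/

open Classical in
/-- revealing `R` -/
theorem cf_glue (S : St) (R : Finset (ℤ × ℤ)) (ω ω' : Cfg) :
    S.cf (glue (↑R) ω ω') = (S.rv R ω).cf ω' := by
  funext q
  show ov S.F S.z _ q = ov (S.F \ R) (ov (S.F ∩ R) S.z ω) ω' q
  by_cases hF : q ∈ S.F
  · rw [ov_mem hF]
    by_cases hq : q ∈ R
    · rw [glue_mem (Finset.mem_coe.2 hq), ov_notMem (fun h => (Finset.mem_sdiff.1 h).2 hq),
        ov_mem (Finset.mem_inter.2 ⟨hF, hq⟩)]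
    · rw [glue_not_mem (fun h => hq (Finset.mem_coe.1 h)), ov_mem (Finset.mem_sdiff.2 ⟨hF, hq⟩)]
  · rw [ov_notMem hF, ov_notMem (fun h => hF (Finset.mem_sdiff.1 h).1),
      ov_notMem (fun h => hF (Finset.mem_inter.1 h).1)]

theorem int_stop {R : Cfg → Finset (ℤ × ℤ)} (hR : StopSet R) {K : Finset (ℤ × ℤ)} {G : Cfg → ℝ}
    (hG : Dep K G) : ∫ ω, G ω ∂μ = ∫ ω, ∫ ω', G (glue (↑(R ω)) ω ω') ∂μ ∂μ :=
  integral_stop fair hR hG.measurable hG.integrable

/-- **Markov property** -/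
theorem E_stop (S : St) {R : Cfg → Finset (ℤ × ℤ)} (hR : StopSet R) (Φ : Cfg → ℝ) :
    S.E Φ = ∫ ω, (S.rv (R ω) ω).E Φ ∂μ := by
  show ∫ ω, Φ (S.cf ω) ∂μ = _
  rw [int_stop hR (dep_cf S Φ)]
  refine integral_congr_ae (ae_of_all _ fun ω => ?_)
  show ∫ ω', Φ (S.cf (glue (↑(R ω)) ω ω')) ∂μ = ∫ ω', Φ ((S.rv (R ω) ω).cf ω') ∂μ
  refine integral_congr_ae (ae_of_all _ fun ω' => ?_)
  show Φ _ = Φ _
  rw [cf_glue]

/-- **Markov property** with an event of the past -/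
theorem E_stop_past (S : St) {R : Cfg → Finset (ℤ × ℤ)} (hR : StopSet R) (Φ : Cfg → ℝ)
    {K : Finset (ℤ × ℤ)} {Y : Cfg → ℝ} (hY : Past R Y) (hYK : Dep K Y) :
    ∫ ω, Y ω * Φ (S.cf ω) ∂μ = ∫ ω, Y ω * (S.rv (R ω) ω).E Φ ∂μ := by
  classical
  have h1 : Dep (K ∪ S.F) fun ω => Y ω * Φ (S.cf ω) :=
    (hYK.mono Finset.subset_union_left).comp₂
      ((dep_cf S Φ).mono Finset.subset_union_right) fun a b => a * b
  rw [int_stop hR h1]
  refine integral_congr_ae (ae_of_all _ fun ω => ?_)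
  show ∫ ω', Y (glue (↑(R ω)) ω ω') * Φ (S.cf (glue (↑(R ω)) ω ω')) ∂μ =
    Y ω * ∫ ω', Φ ((S.rv (R ω) ω).cf ω') ∂μ
  rw [← integral_const_mul]
  refine integral_congr_ae (ae_of_all _ fun ω' => ?_)
  show Y _ * Φ _ = Y _ * Φ _
  rw [cf_glue, hY.glue ω ω']

/-- the mean value in the new state as a function of `ω` depends on finitely many squares -/
theorem dep_rvE (S : St) {K : Finset (ℤ × ℤ)} {R : Cfg → Finset (ℤ × ℤ)} (hK : Dep K R)
    (Φ : Cfg → ℝ) : Dep (K ∪ S.F) fun ω => (S.rv (R ω) ω).E Φ := by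
  classical
  intro ω ω' h
  have h1 : R ω = R ω' := hK ω ω' fun q hq => h q (Finset.mem_union_left _ hq)
  show (S.rv (R ω) ω).E Φ = (S.rv (R ω') ω').E Φ
  have h2 : S.rv (R ω) ω = S.rv (R ω') ω' := by
    unfold St.rv
    rw [h1]
    congr 1
    funext q
    by_cases hq : q ∈ S.F ∩ R ω'
    · rw [ov_mem hq, ov_mem hq, h q (Finset.mem_union_right _ (Finset.mem_inter.1 hq).1)]
    · rw [ov_notMem hq, ov_notMem hq]
  rw [h2]

theorem StopSet.const (K : Finset (ℤ × ℤ)) : StopSet fun _ : Cfg => K := fun _ _ _ => rfl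

/-! ### the exploration of the strand -/

variable {S : St}

theorem mem_RV {A : Set (ℤ × ℤ)} {ω : Cfg} {q : ℤ × ℤ} : q ∈ S.RV A ω ↔
    q ∈ S.F ∧ ∃ i < hit S.D S.e0 A (S.cf ω), hdv (st S.e0 (S.cf ω) i) = q := mem_rev

theorem RV_sub {A : Set (ℤ × ℤ)} {ω : Cfg} : S.RV A ω ⊆ S.F := fun _ h => (mem_RV.1 h).1

theorem RV_notMem {A : Set (ℤ × ℤ)} {ω : Cfg} {q : ℤ × ℤ} (h : q ∈ S.RV A ω) : q ∉ A := by
  obtain ⟨-, i, hi, rfl⟩ := mem_RV.1 h
  exact (Bs.hit_min hi).1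

/-- configurations which agree on `RV A ω` have the same path up to the hitting time -/
theorem RV_path (hS : tlv S.e0 ∉ S.D) {A : Set (ℤ × ℤ)} {ω ω' : Cfg}
    (h : ∀ q ∈ S.RV A ω, ω' q = ω q) :
    (∀ i ≤ hit S.D S.e0 A (S.cf ω), st S.e0 (S.cf ω') i = st S.e0 (S.cf ω) i) ∧
      hit S.D S.e0 A (S.cf ω') = hit S.D S.e0 A (S.cf ω) := by
  have h1 : ∀ i ≤ hit S.D S.e0 A (S.cf ω), st S.e0 (S.cf ω') i = st S.e0 (S.cf ω) i := by
    refine Bs.st_congr fun i hi => ?_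
    by_cases hF : hdv (st S.e0 (S.cf ω) i) ∈ S.F
    · show ov S.F S.z ω' _ = ov S.F S.z ω _
      rw [ov_mem hF, ov_mem hF]
      exact h _ (mem_RV.2 ⟨hF, i, hi, rfl⟩)
    · show ov S.F S.z ω' _ = ov S.F S.z ω _
      rw [ov_notMem hF, ov_notMem hF]
  exact ⟨h1, Bs.hit_congr hS h1⟩

/-- **the exploration is a stopping set** -/
theorem stopSet_RV (hS : tlv S.e0 ∉ S.D) (A : Set (ℤ × ℤ)) : StopSet (S.RV A) := by
  intro ω ω' h
  obtain ⟨h1, h2⟩ := RV_path hS h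
  ext q
  rw [mem_RV, mem_RV, h2]
  refine and_congr_right fun _ => exists_congr fun i => and_congr_right fun hi => ?_
  rw [h1 i hi.le]

theorem past_X1 (hS : tlv S.e0 ∉ S.D) (A : Set (ℤ × ℤ)) : Past (S.RV A) (S.X1 A) := by
  intro ω ω' h
  obtain ⟨h1, h2⟩ := RV_path hS h
  show st S.e0 (S.cf ω') (hit S.D S.e0 A (S.cf ω')) = st S.e0 (S.cf ω) (hit S.D S.e0 A (S.cf ω))
  rw [h2, h1 _ le_rfl]

theorem dep_RV (A : Set (ℤ × ℤ)) : Dep S.F (S.RV A) := by
  intro ω ω' h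
  ext q
  rw [mem_RV, mem_RV]
  have : S.cf ω = S.cf ω' := dep_cf S id ω ω' h
  rw [this]

/-- the configuration of the new state agrees with the old one off the fresh squares -/
theorem rv_cf (R : Finset (ℤ × ℤ)) (ω : Cfg) {q : ℤ × ℤ} (hq : q ∉ S.F \ R) :
    (S.rv R ω).z q = S.cf ω q := by
  classical
  show ov (S.F ∩ R) S.z ω q = ov S.F S.z ω q
  by_cases hF : q ∈ S.F
  · have hR : q ∈ R := by
      by_contra h
      exact hq (Finset.mem_sdiff.2 ⟨hF, h⟩)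
    rw [ov_mem (Finset.mem_inter.2 ⟨hF, hR⟩), ov_mem hF]
  · rw [ov_notMem (fun h => hF (Finset.mem_inter.1 h).1), ov_notMem hF]

/-- if the squares read before the entrance in `A` are revealed and `A` is fresh, then the tip of the
new state is the medial edge by which the strand enters `A` -/
theorem rv_m (hS : tlv S.e0 ∉ S.D) {A : Set (ℤ × ℤ)} {R : Finset (ℤ × ℤ)} {ω : Cfg}
    (h1 : S.RV A ω ⊆ R) (h2 : ∀ q ∈ A, q ∈ S.F ∧ q ∉ R) :
    (∀ i ≤ hit S.D S.e0 A (S.cf ω), st S.e0 (S.rv R ω).z i = st S.e0 (S.cf ω) i) ∧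
    (S.rv R ω).m = hit S.D S.e0 A (S.cf ω) ∧ (S.rv R ω).tip = S.X1 A ω ∧
    (S.rv R ω).Hs = {v | ∃ i < hit S.D S.e0 A (S.cf ω), hdv (st S.e0 (S.cf ω) i) = v} := by
  classical
  have key : ∀ i < hit S.D S.e0 A (S.cf ω), hdv (st S.e0 (S.cf ω) i) ∉ S.F \ R := by
    intro i hi hmem
    have hF := (Finset.mem_sdiff.1 hmem).1
    exact (Finset.mem_sdiff.1 hmem).2 (h1 (mem_RV.2 ⟨hF, i, hi, rfl⟩))
  have e1 : ∀ i ≤ hit S.D S.e0 A (S.cf ω), st S.e0 (S.rv R ω).z i = st S.e0 (S.cf ω) i :=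
    Bs.st_congr fun i hi => rv_cf R ω (key i hi)
  have e2 : (S.rv R ω).m = hit S.D S.e0 A (S.cf ω) := by
    refine Bs.hit_eq_of ?_ ?_
    · show hdv (st S.e0 (S.rv R ω).z _) ∈ (↑(S.F \ R) : Set (ℤ × ℤ)) ∨ _
      rw [e1 _ le_rfl]
      rcases Bs.hit_spec hS A (S.cf ω) with h | h
      · exact Or.inl (Finset.mem_coe.2 (Finset.mem_sdiff.2 (h2 _ h)))
      · right
        show hdv (st S.e0 (S.rv R ω).z _) ∉ S.D
        rw [e1 _ le_rfl]
        exact h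
    · intro i hi
      show hdv (st S.e0 (S.rv R ω).z i) ∉ (↑(S.F \ R) : Set (ℤ × ℤ)) ∧ _ ∈ S.D
      show _ ∧ hdv (st S.e0 (S.rv R ω).z i) ∈ S.D
      rw [e1 i hi.le]
      exact ⟨fun h => key i hi (Finset.mem_coe.1 h), (Bs.hit_min hi).2⟩
  refine ⟨e1, e2, ?_, ?_⟩
  · show st S.e0 (S.rv R ω).z (S.rv R ω).m = _
    rw [e2, e1 _ le_rfl]
    rfl
  · ext v
    show (∃ i < (S.rv R ω).m, hdv (st S.e0 (S.rv R ω).z i) = v) ↔ _
    rw [e2]
    refine exists_congr fun i => and_congr_right fun hi => ?_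
    rw [e1 i hi.le]

theorem rv_ok (h : S.Ok) (R : Finset (ℤ × ℤ)) (ω : Cfg) : (S.rv R ω).Ok :=
  ⟨fun _ hq => h.sub (Finset.mem_sdiff.1 hq).1, h.co, h.st⟩

/-- the explored strand of the full configuration -/
theorem st_m (ω : Cfg) : ∀ i ≤ S.m, st S.e0 (S.cf ω) i = st S.e0 S.z i := by
  refine Bs.st_congr fun i hi => ?_
  exact ov_notMem fun h => (Bs.hit_min hi).1 (Finset.mem_coe.2 h)

end Vale.Agent.P167.H318
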