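import Vale.Agent.P167.H318.Cl
import Vale.Agent.P167.H704.Tri
import Vale.Agent.P167.H950.Start

/-!
# P167, block NSYM: asymptotic reflection symmetry of the landing of a strand
-/

namespace Vale.Agent.P167.H318

open Vale.Agent.P167 Vale.Agent.P167.H704

/-- **TRI** (from 685's `tri4`) -/
theorem tri' : TRI := by
  intro S u w l H x0 ρ k ψ ω hl hlH hTA hF hst hx0 hk hψ
  rcases tri4 S u w l H x0 ρ k ψ ω hl hlH hTA hF hx0 hk hψ with h | h | h | ⟨x, h1, h2⟩
  · exact Or.inl h
  · exact Or.inr (Or.inl h)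
  · exact Or.inr (Or.inr h)
  · exfalso
    have h3 := abs_lt.1 h1
    have h4 : |x0 - u| < w - ρ := by linarith
    have h5 := abs_lt.1 h4
    exact hst x (by linarith) (by linarith) h2

/-- **CL** -/
theorem cl : CL := cl_tri tri'

/-- **SYM** -/
theorem sym : SYM := H950.Start.start cl H632.esc H632.sm

end Vale.Agent.P167.H318
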