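import Vale.Agent.P167.H192.Inter

/-!
# P167, block NSYM: asymptotic reflection symmetry of the strands at a flat side, definitions

`D` finite set of squares with connected complement, `F ⊆ D` the fresh squares, `z` the states of the
other squares, `e0` a medial edge entering `D`.  The full configuration is `ov F z ω`.
All events and observables are functions of the full configuration `ξ` through the strand
`(nx ξ)^[i] e0`, `i < ex D e0 ξ`.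
-/

namespace Vale.Agent.P167.H318

open Vale.Agent.P167 Vale.Agent.P167.H192 Vale.Agent.P145.FB Vale.Agent.P167.H558
open MeasureTheory Relation

/-- neighbouring squares -/
def Adj (a b : ℤ × ℤ) : Prop :=
  (a.1 = b.1 ∧ (b.2 = a.2 + 1 ∨ b.2 = a.2 - 1)) ∨ (a.2 = b.2 ∧ (b.1 = a.1 + 1 ∨ b.1 = a.1 - 1))

/-- the complement of `D` is connected -/
def CoConn (D : Finset (ℤ × ℤ)) : Prop :=
  ∀ a b, a ∉ D → b ∉ D → ReflTransGen (fun a b => Adj a b ∧ b ∉ D) a b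

/-- the `i`-th medial edge of the strand -/
def st (e0 : Ed) (ξ : Cfg) (i : ℕ) : Ed := (nx ξ)^[i] e0

/-- first time at which the square ahead is in `A` or off `D` -/
noncomputable def hit (D : Finset (ℤ × ℤ)) (e0 : Ed) (A : Set (ℤ × ℤ)) (ξ : Cfg) : ℕ :=
  sInf {n | hdv (st e0 ξ n) ∈ A ∨ hdv (st e0 ξ n) ∉ D}

/-- exit time of `D` -/
noncomputable def ex (D : Finset (ℤ × ℤ)) (e0 : Ed) (ξ : Cfg) : ℕ := hit D e0 ∅ ξ

/-- the strand from time `m` on visits a square of `A` before it leaves `D` -/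
def Visit (D : Finset (ℤ × ℤ)) (e0 : Ed) (m : ℕ) (A : Set (ℤ × ℤ)) (ξ : Cfg) : Prop :=
  ∃ j, m ≤ j ∧ j < ex D e0 ξ ∧ hdv (st e0 ξ j) ∈ A

/-- the weight of a medial edge: `ψ (v.1 + 1)` times the sign of the canonical direction, for the
horizontal medial edges at height between `0` and `k` -/
def wt (ψ : ℤ → ℝ) (k : ℕ) : Ed → ℝ
  | Sum.inl v => if 0 ≤ v.2 ∧ v.2 < k then ψ (v.1 + 1) * (sg (Sum.inl v) : ℝ) else 0
  | Sum.inr _ => 0

/-- the observable -/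
noncomputable def J (D : Finset (ℤ × ℤ)) (e0 : Ed) (ψ : ℤ → ℝ) (k : ℕ) (ξ : Cfg) : ℝ :=
  ∑ i ∈ Finset.range (ex D e0 ξ), wt ψ k (st e0 ξ i)

/-- a state -/
structure St where
  /-- the domain -/
  D : Finset (ℤ × ℤ)
  /-- the fresh squares -/
  F : Finset (ℤ × ℤ)
  /-- the states of the squares off `F` -/
  z : Cfg
  /-- the first medial edge -/
  e0 : Ed

namespace St

variable (S : St)

/-- the full configuration -/
noncomputable def cf (ω : Cfg) : Cfg := ov S.F S.z ω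

/-- mean value of a function of the full configuration -/
noncomputable def E (Φ : Cfg → ℝ) : ℝ := ∫ ω, Φ (ov S.F S.z ω) ∂μ

/-- probability of an event of the full configuration -/
noncomputable def Pr (A : Set Cfg) : ℝ := μ.real {ω | ov S.F S.z ω ∈ A}

/-- length of the explored strand: it stops at the first fresh square or at the exit of `D` -/
noncomputable def m : ℕ := hit S.D S.e0 (↑S.F) S.z

/-- the tip of the explored strand -/
noncomputable def tip : Ed := st S.e0 S.z S.m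

/-- the squares visited by the explored strand -/
def Hs : Set (ℤ × ℤ) := {v | ∃ i < S.m, hdv (st S.e0 S.z i) = v}

/-- the squares of `R` are revealed -/
noncomputable def rv (R : Finset (ℤ × ℤ)) (ω : Cfg) : St :=
  ⟨S.D, S.F \ R, ov (S.F ∩ R) S.z ω, S.e0⟩

/-- the fresh squares visited by the strand before it enters `A` (or leaves `D`) -/
noncomputable def RV (A : Set (ℤ × ℤ)) (ω : Cfg) : Finset (ℤ × ℤ) :=
  H192.rev S.F S.z S.e0 (hit S.D S.e0 A (ov S.F S.z ω)) ω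

/-- the medial edge by which the strand enters `A` (or leaves `D`) -/
noncomputable def X1 (A : Set (ℤ × ℤ)) (ω : Cfg) : Ed :=
  st S.e0 (ov S.F S.z ω) (hit S.D S.e0 A (ov S.F S.z ω))

/-- basic conditions -/
structure Ok : Prop where
  sub : S.F ⊆ S.D
  co : CoConn S.D
  st : tlv S.e0 ∉ S.D

end St

/-- half box -/
def HB (b R : ℤ) : Set (ℤ × ℤ) := {v | b - R ≤ v.1 ∧ v.1 ≤ b + R ∧ 0 ≤ v.2 ∧ v.2 ≤ R}

/-- the low zone -/
def Lo (u w h : ℤ) : Set (ℤ × ℤ) := {v | u - w ≤ v.1 ∧ v.1 ≤ u + w ∧ 0 ≤ v.2 ∧ v.2 < h}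

/-- the side `y = 0` of `D` is flat for `|x - u| ≤ w`, the squares below height `h` are in `D` -/
structure Flat (D : Finset (ℤ × ℤ)) (u w h : ℤ) : Prop where
  mem : ∀ v ∈ Lo u w h, v ∈ D
  not : ∀ x, u - w ≤ x → x ≤ u + w → (x, (-1 : ℤ)) ∉ D

/-- **type A**: everything in the low zone is fresh -/
structure TA (S : St) (u w h : ℤ) : Prop extends St.Ok S where
  flat : Flat S.D u w h
  fresh : ∀ v ∈ Lo u w h, v ∈ S.F

/-- the squares of `A` are fresh or visited by the explored strand -/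
def PO (S : St) (A : Set (ℤ × ℤ)) : Prop := ∀ v ∈ A, v ∈ S.F ∨ v ∈ S.Hs

/-- **type B**: fresh below height `h`, only the explored strand is revealed below height `H`, the
tip enters the low zone from above at `x` -/
structure TB (S : St) (u w h H x : ℤ) : Prop extends TA S u w h where
  flat' : Flat S.D u w H
  po : PO S (Lo u w H)
  tip : S.tip = Sum.inr (x, h - 1)
  ev : Even (x + (h - 1))

/-! ### the mirror image `x ↦ 2 c + 1 - x` -/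

/-- mirror image of a site -/
def mS (c : ℤ) (v : ℤ × ℤ) : ℤ × ℤ := (2 * c + 1 - v.1, v.2)

/-- mirror image of a square -/
def mQ (c : ℤ) (v : ℤ × ℤ) : ℤ × ℤ := (2 * c - v.1, v.2)

/-- mirror image of a medial edge -/
def mE (c : ℤ) : Ed → Ed
  | Sum.inl v => Sum.inl (2 * c - v.1 - 1, v.2)
  | Sum.inr v => Sum.inr (2 * c - v.1, v.2)

/-- mirror image of a configuration (the colours are exchanged) -/
def mC (c : ℤ) (ω : Cfg) : Cfg := fun v => !(ω (mQ c v))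

/-! ### the gate -/

/-- sites of the band -/
def Bd (x l : ℤ) : Set (ℤ × ℤ) :=
  {v | x - 4 * l + 1 ≤ v.1 ∧ v.1 ≤ x + 4 * l ∧ l ≤ v.2 ∧ v.2 ≤ 4 * l}

/-- sites of the box -/
def Bx (x l : ℤ) : Set (ℤ × ℤ) :=
  {v | x - 4 * l + 1 ≤ v.1 ∧ v.1 ≤ x + 4 * l ∧ 0 ≤ v.2 ∧ v.2 ≤ 4 * l}

/-- sites around the tip, without the column below the tip -/
def Cs (x l : ℤ) : Set (ℤ × ℤ) :=
  {v | x - 4 * l + 1 ≤ v.1 ∧ v.1 ≤ x + 4 * l ∧ l ≤ v.2 ∧ v.2 ≤ 8 * l ∧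
    (v.2 < 4 * l → v.1 < x ∨ x + 1 < v.1)}

/-- `e` is a gate for the tips at `inr (x, 4 l - 1)`: its left (primal) site is joined to `a` (east of
the tip), which is joined to the side and around the tip to the west of the tip by open paths; its
right (dual) site is joined by dual paths to `a'` (west of the tip), the side and around the tip to
the east of the tip -/
def Gate (x l : ℤ) (ω : Cfg) (e : Ed) : Prop :=
  (x - 4 * l + 1 ≤ (hdv e).1 ∧ (hdv e).1 ≤ x + 4 * l - 1 ∧ l ≤ (hdv e).2 ∧ (hdv e).2 < 4 * l) ∧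
  (x - 4 * l + 1 ≤ (tlv e).1 ∧ (tlv e).1 ≤ x + 4 * l - 1 ∧ l ≤ (tlv e).2 ∧ (tlv e).2 < 4 * l) ∧
  (∃ a p c : ℤ × ℤ, x + 2 ≤ a.1 ∧ a.2 ≤ 4 * l ∧ p.2 = 0 ∧ c.1 ≤ x - 1 ∧ c.2 ≤ 4 * l ∧
    PConn (op ω) (Bd x l) (ls e) a ∧ PConn (op ω) (Bx x l) a p ∧ PConn (op ω) (Cs x l) a c) ∧
  (∃ a p c : ℤ × ℤ, a.1 ≤ x - 1 ∧ a.2 ≤ 4 * l ∧ p.2 = 0 ∧ x + 2 ≤ c.1 ∧ c.2 ≤ 4 * l ∧
    PConn (op ω)ᶜ (Bd x l) (rs e) a ∧ PConn (op ω)ᶜ (Bx x l) a p ∧ PConn (op ω)ᶜ (Cs x l) a c)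

/-- the gate event -/
def GE (x l : ℤ) : Set Cfg := {ω | ∃ e, Gate x l ω e}

/-! ### the events -/

/-- squares of the box around the tip -/
def Qx (x l : ℤ) : Set (ℤ × ℤ) :=
  {v | x - 4 * l + 1 ≤ v.1 ∧ v.1 ≤ x + 4 * l - 1 ∧ 0 ≤ v.2 ∧ v.2 < 4 * l}

/-- the strand of the configuration `ω` passes `e` before it enters the low zone of height `l` (and
after its tip), and then does not leave the box `Qx x l` before it lands -/
def PS (S : St) (u w l x : ℤ) (ω : Cfg) (e : Ed) : Prop :=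
  ∃ i, S.m ≤ i ∧ i ≤ hit S.D S.e0 (Lo u w l) (S.cf ω) ∧ i < ex S.D S.e0 (S.cf ω) ∧
    st S.e0 (S.cf ω) i = e ∧
    ∀ j, i ≤ j → j < ex S.D S.e0 (S.cf ω) → hdv (st S.e0 (S.cf ω) j) ∈ Qx x l

/-- common edge: the strand of `ω` passes `e` and the strand of the mirror image of `ω` passes the
mirror image of `e` -/
def CE (S : St) (u w l x : ℤ) : Set Cfg :=
  {ω | ∃ e, PS S u w l x ω e ∧ PS S u w l x (mC x ω) (mE x e)}

/-- larger box -/
def Q2 (x l : ℤ) : Set (ℤ × ℤ) := {v | x - 8 * l ≤ v.1 ∧ v.1 ≤ x + 8 * l ∧ 0 ≤ v.2 ∧ v.2 < 4 * l}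

/-- the strands of `ω` and of its mirror image enter the low zone of height `l` by mirror medial
edges in the box of the gate -/
def TT (S : St) (u w l x : ℤ) : Set Cfg :=
  {ω | hdv (S.X1 (Lo u w l) ω) ∈ Qx x l ∧ S.X1 (Lo u w l) (mC x ω) = mE x (S.X1 (Lo u w l) ω)}

/-- moreover the strand then enters the low zone of height `l'` before it leaves the box -/
def TJ (S : St) (u w l x l' : ℤ) : Set Cfg :=
  {ω | ω ∈ TT S u w l x ∧ hit S.D S.e0 (Lo u w l') (S.cf ω) < ex S.D S.e0 (S.cf ω) ∧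
    ∀ i, hit S.D S.e0 (Lo u w l) (S.cf ω) ≤ i → i ≤ hit S.D S.e0 (Lo u w l') (S.cf ω) →
      hdv (st S.e0 (S.cf ω) i) ∈ Qx x l}

/-- moreover the strand then lands before it leaves the larger box -/
def AA (S : St) (u w l x l' : ℤ) : Set Cfg :=
  {ω | ω ∈ TJ S u w l x l' ∧
    ∀ i, hit S.D S.e0 (Lo u w l) (S.cf ω) ≤ i → i < ex S.D S.e0 (S.cf ω) →
      hdv (st S.e0 (S.cf ω) i) ∈ Q2 x l}

/-! ### the blocks -/

/-- **GP** (gate probability) -/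
def GP : Prop := ∃ (c : ℝ) (l0 : ℤ), 0 < c ∧ ∀ x l : ℤ, l0 ≤ l → c ≤ μ.real (GE x l)

/-- **GT** (gate topology): the strand passes the gate before it comes below `l`, and then does not
leave the box of the gate before it lands -/
def GT : Prop := ∀ (S : St) (u w l H x : ℤ) (ω : Cfg) (e : Ed), 1 ≤ l → 8 * l ≤ H →
  TB S u w (4 * l) H x → u - w ≤ x - 8 * l → x + 8 * l ≤ u + w → Gate x l ω e → PS S u w l x ω e

/-- **PC**: probability of a common edge (from GP and GT) -/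
def PC : Prop := ∃ (c : ℝ) (l0 : ℤ), 0 < c ∧ ∀ (S : St) (u w l H x : ℤ), l0 ≤ l → 1 ≤ l →
  8 * l ≤ H → TB S u w (4 * l) H x → u - w ≤ x - 20 * l → x + 20 * l ≤ u + w →
  c ≤ μ.real (CE S u w l x)

/-- **GA**: `CE` is contained in `AA` -/
def GA : Prop := ∀ (S : St) (u w l H x l' : ℤ), 1 ≤ l' → l' ≤ l → 8 * l ≤ H →
  TB S u w (4 * l) H x → u - w ≤ x - 20 * l → x + 20 * l ≤ u + w →
  CE S u w l x ⊆ AA S u w l x l'

/-- **PA**: probability of `AA` -/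
def PA : Prop := ∃ (c : ℝ) (l0 : ℤ), 0 < c ∧ ∀ (S : St) (u w l H x l' : ℤ), l0 ≤ l → 1 ≤ l' →
  l' ≤ l → 8 * l ≤ H → TB S u w (4 * l) H x → u - w ≤ x - 20 * l → x + 20 * l ≤ u + w →
  c ≤ μ.real (AA S u w l x l')

/-- **DT**: `TJ` is determined by the squares at height `≥ l'` -/
def DT : Prop := ∀ (S : St) (u w l H x l' : ℤ), 1 ≤ l' → l' ≤ l → 8 * l ≤ H →
  TB S u w (4 * l) H x → (∀ v ∈ S.F, v ∈ Lo u w H) → u - w ≤ x - 20 * l → x + 20 * l ≤ u + w →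
  ∀ ω ω' : Cfg, (∀ q : ℤ × ℤ, l' ≤ q.2 → ω q = ω' q) → ω ∈ TJ S u w l x l' → ω' ∈ TJ S u w l x l'

/-- **ESC** (escape) -/
def ESC : Prop := ∃ C α : ℝ, 0 < C ∧ 0 < α ∧ ∀ (S : St) (b r R : ℤ), 1 ≤ r → r ≤ R → S.Ok →
  (∀ v ∈ HB b R, v ∈ S.D) → (∀ x, b - R ≤ x → x ≤ b + R → (x, (-1 : ℤ)) ∉ S.D) →
  (∀ v ∈ HB b r, v ∈ S.F) → PO S (HB b R) → hdv S.tip ∈ HB b r →
  S.Pr {ξ | Visit S.D S.e0 S.m (HB b R)ᶜ ξ} ≤ C * ((r : ℝ) / R) ^ α

/-- **SM** (second moment of the observable), `k` = height of the observable -/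
def SM : Prop := ∃ C : ℝ, 0 < C ∧ ∀ (S : St) (u w y : ℤ) (k : ℕ) (ψ : ℤ → ℝ), 1 ≤ k →
  150 * (k : ℤ) ≤ y → TA S u w y → (∀ x, |ψ x| ≤ 1) →
  (∀ x, ψ x ≠ 0 → u - w + 150 * k ≤ x ∧ x ≤ u + w - 150 * k) →
  S.E (fun ξ => J S.D S.e0 ψ k ξ ^ 2) ≤ C * (k : ℝ) ^ 2

/-- **MR** (mirror image): on `AA` the mean value of the observable is small -/
def MR : Prop := ∃ C : ℝ, 0 < C ∧ ∀ (S : St) (u w l H x l' : ℤ) (k : ℕ) (ψ : ℤ → ℝ) (v : ℤ),
  1 ≤ k → 150 * (k : ℤ) ≤ l' → l' ≤ l → 8 * l ≤ H → TB S u w (4 * l) H x →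
  (∀ v ∈ S.F, v ∈ Lo u w H) → u - w ≤ x - 20 * l → x + 20 * l ≤ u + w → 20 * l ≤ v →
  (∀ x, |ψ x| ≤ 1) → (∀ x x', |ψ x - ψ x'| ≤ |(x : ℝ) - x'| / v) →
  (∀ x, ψ x ≠ 0 → u - w + 150 * k ≤ x ∧ x ≤ u + w - 150 * k) →
  |∫ ω in AA S u w l x l', J S.D S.e0 ψ k (S.cf ω) ∂μ| ≤ C * k * (l / v)

/-- **SYM\*** -/
def SYM : Prop := ∀ ε : ℝ, 0 < ε → ∃ K : ℤ, ∀ (k : ℕ) (w u : ℤ) (S : St) (ψ : ℤ → ℝ), 1 ≤ k →
  K * k ≤ w → S.Ok → (∀ v, v ∈ S.F ↔ v ∈ Lo u (4 * w) (4 * w + 1)) →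
  (∀ x, u - 4 * w ≤ x → x ≤ u + 4 * w → (x, (-1 : ℤ)) ∉ S.D) →
  (∀ x, u - 4 * w ≤ x → x ≤ u + 4 * w → S.e0 ≠ Sum.inr (x, -1)) →
  (∀ x, |ψ x| ≤ 1) → (∀ x x', |ψ x - ψ x'| ≤ |(x : ℝ) - x'| / w) →
  (∀ x, ψ x ≠ 0 → u - w ≤ x ∧ x ≤ u + w) →
  |S.E (J S.D S.e0 ψ k)| ≤ ε * k

/-- the assembly -/
def REC : Prop := PA → DT → ESC → SM → MR → SYM

end Vale.Agent.P167.H318
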