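import Vale.Agent.P167.H318.MK

/-!
# P167, block NSYM: the bad part of the recursion

On `TJ \ AA` the strand has reached the low zone of height `l'` in the box and escapes afterwards.
-/

namespace Vale.Agent.P167.H318

open Vale.Agent.P167 Vale.Agent.P167.H192 Vale.Agent.P145.FB Vale.Agent.P167.H558
open MeasureTheory Relation

theorem Lo_mono {u w h h' : ℤ} (hh : h' ≤ h) : Lo u w h' ⊆ Lo u w h :=
  fun _ hv => ⟨hv.1, hv.2.1, hv.2.2.1, lt_of_lt_of_le hv.2.2.2 hh⟩

theorem Dep.and {K : Finset (ℤ × ℤ)} {p q : Cfg → Prop} (hp : Dep K p) (hq : Dep K q) :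
    Dep K fun ω => p ω ∧ q ω := hp.comp₂ hq And

theorem ov_congr {F : Finset (ℤ × ℤ)} {z ω ω' : Cfg} (h : ∀ q ∈ F, ω q = ω' q) :
    ov F z ω = ov F z ω' := dep_ov F z id ω ω' h

section

variable {S : St} {u w l H x l' : ℤ}

theorem dep_pair {α : Type*} (S : St) (x : ℤ) (f : Cfg → Cfg → α) :
    Dep (S.F ∪ mF x S.F) fun ω => f (ov S.F S.z ω) (ov S.F S.z (mC x ω)) := by
  intro ω ω' h
  have e1 : ov S.F S.z ω = ov S.F S.z ω' :=
    ov_congr fun q hq => h q (Finset.mem_union_left _ hq)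
  have e2 : ov S.F S.z (mC x ω) = ov S.F S.z (mC x ω') := by
    refine ov_congr fun q hq => ?_
    show (!ω (mQ x q)) = !ω' (mQ x q)
    rw [h _ (Finset.mem_union_right _ (Finset.mem_image_of_mem _ hq))]
  show f _ _ = f _ _
  rw [e1, e2]

theorem dep_TJ (S : St) (u w l x l' : ℤ) :
    Dep (S.F ∪ mF x S.F) fun ω => ω ∈ TJ S u w l x l' := by
  intro ω ω' h
  have e1 : S.cf ω = S.cf ω' := ov_congr fun q hq => h q (Finset.mem_union_left _ hq)
  have e3 := dep_pair S x (fun ξ ξ' => (st S.e0 ξ (hit S.D S.e0 (Lo u w l) ξ),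
    st S.e0 ξ' (hit S.D S.e0 (Lo u w l) ξ'))) ω ω' h
  have e4 : S.X1 (Lo u w l) ω = S.X1 (Lo u w l) ω' := congrArg Prod.fst e3
  have e5 : S.X1 (Lo u w l) (mC x ω) = S.X1 (Lo u w l) (mC x ω') := congrArg Prod.snd e3
  show (_ ∧ _ ∧ _) = (_ ∧ _ ∧ _)
  simp only [TT, Set.mem_ofPred_eq, e1, e4, e5]

theorem dep_AA (S : St) (u w l x l' : ℤ) :
    Dep (S.F ∪ mF x S.F) fun ω => ω ∈ AA S u w l x l' := by
  intro ω ω' h
  have e1 : S.cf ω = S.cf ω' := ov_congr fun q hq => h q (Finset.mem_union_left _ hq)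
  have e2 := dep_TJ S u w l x l' ω ω' h
  show (_ ∧ _) = (_ ∧ _)
  rw [e1]
  exact congrArg₂ And e2 rfl

theorem hit_lt_ex (hS : tlv S.e0 ∉ S.D) {A : Set (ℤ × ℤ)} {ξ : Cfg} :
    hit S.D S.e0 A ξ < ex S.D S.e0 ξ ↔ hdv (st S.e0 ξ (hit S.D S.e0 A ξ)) ∈ S.D := by
  refine ⟨fun h => Bs.ex_min h, fun h => lt_of_le_of_ne (Bs.hit_le_ex hS) fun h1 => ?_⟩
  rw [h1] at h
  exact Bs.ex_spec hS ξ h

/-- the revealed squares -/
noncomputable def Rb (S : St) (u w l x l' : ℤ) (ω : Cfg) : Finset (ℤ × ℤ) :=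
  ((S.F ∪ mF x S.F).filter fun q => l ≤ q.2) ∪ S.RV (Lo u w l') ω

theorem stop_Rb (hS : tlv S.e0 ∉ S.D) : StopSet (Rb S u w l x l') := by
  intro ω ω' h
  show _ ∪ S.RV (Lo u w l') ω' = _ ∪ S.RV (Lo u w l') ω
  rw [stopSet_RV hS _ ω ω' fun q hq => h q (Finset.mem_union_right _ hq)]

theorem past_TJ (hS : tlv S.e0 ∉ S.D) (hF : ∀ v ∈ S.F, v ∈ Lo u w H) (hl : l' ≤ l) :
    Past (Rb S u w l x l') fun ω => ω ∈ TJ S u w l x l' := by
  intro ω ω' h
  obtain ⟨p1, p2⟩ := RV_path hS (ω := ω) (ω' := ω') (A := Lo u w l')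
    fun q hq => h q (Finset.mem_union_right _ hq)
  have hle : hit S.D S.e0 (Lo u w l) (S.cf ω) ≤ hit S.D S.e0 (Lo u w l') (S.cf ω) :=
    Bs.hit_anti hS (Lo_mono hl)
  have q2 : hit S.D S.e0 (Lo u w l) (S.cf ω') = hit S.D S.e0 (Lo u w l) (S.cf ω) :=
    Bs.hit_congr hS fun i hi => p1 i (hi.trans hle)
  have q3 : S.X1 (Lo u w l) ω' = S.X1 (Lo u w l) ω := by
    show st S.e0 (S.cf ω') (hit S.D S.e0 (Lo u w l) (S.cf ω')) = _
    rw [q2, p1 _ hle]
    rfl
  have q4 : S.X1 (Lo u w l) (mC x ω') = S.X1 (Lo u w l) (mC x ω) := by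
    refine past_X1 hS (Lo u w l) _ _ fun q hq => ?_
    have hqF := RV_sub hq
    have hqL := RV_notMem hq
    have hql : l ≤ q.2 := by
      by_contra hcon
      exact hqL ⟨(hF q hqF).1, (hF q hqF).2.1, (hF q hqF).2.2.1, not_le.1 hcon⟩
    show (!ω' (mQ x q)) = !ω (mQ x q)
    rw [h (mQ x q) (Finset.mem_union_left _ (Finset.mem_filter.2
      ⟨Finset.mem_union_right _ (Finset.mem_image_of_mem _ hqF), hql⟩))]
  have q5 : hit S.D S.e0 (Lo u w l') (S.cf ω') < ex S.D S.e0 (S.cf ω') ↔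
      hit S.D S.e0 (Lo u w l') (S.cf ω) < ex S.D S.e0 (S.cf ω) := by
    rw [hit_lt_ex hS, hit_lt_ex hS, p2, p1 _ le_rfl]
  have q6 : (∀ i, hit S.D S.e0 (Lo u w l) (S.cf ω) ≤ i → i ≤ hit S.D S.e0 (Lo u w l') (S.cf ω) →
      hdv (st S.e0 (S.cf ω') i) ∈ Qx x l) ↔
      ∀ i, hit S.D S.e0 (Lo u w l) (S.cf ω) ≤ i → i ≤ hit S.D S.e0 (Lo u w l') (S.cf ω) →
      hdv (st S.e0 (S.cf ω) i) ∈ Qx x l := by
    refine forall_congr' fun i => forall_congr' fun _ => forall_congr' fun hi => ?_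
    rw [p1 i hi]
  apply propext
  show ((_ ∧ _) ∧ _ ∧ _) ↔ ((_ ∧ _) ∧ _ ∧ _)
  rw [q3, q4, q5, q2, p2, q6]

end

/-- **the bad part** -/
theorem bad (hE : ESC) (hS : SM) : ∃ C α : ℝ, 0 < C ∧ 0 < α ∧
    ∀ (S : St) (u w l H x l' : ℤ) (k : ℕ) (ψ : ℤ → ℝ),
      1 ≤ k → 150 * (k : ℤ) ≤ l' → l' ≤ l → 8 * l ≤ H → TB S u w (4 * l) H x →
      (∀ v ∈ S.F, v ∈ Lo u w H) → u - w ≤ x - 20 * l → x + 20 * l ≤ u + w →
      (∀ x, |ψ x| ≤ 1) →
      (∀ x, ψ x ≠ 0 → u - w + 150 * k ≤ x ∧ x ≤ u + w - 150 * k) →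
      ∫ ω in TJ S u w l x l' \ AA S u w l x l', |J S.D S.e0 ψ k (S.cf ω)| ∂μ ≤
        C * k * ((l' : ℝ) / l) ^ α := by
  obtain ⟨C1, α, hC1, hα, h1⟩ := hE
  obtain ⟨C2, hC2, h2⟩ := hS
  refine ⟨(C1 + C2) / 2, α / 2, by positivity, by positivity, ?_⟩
  intro S u w l H x l' k ψ hk hkl hl hH hB hF hx1 hx2 hψ hψ2
  have hl'1 : 150 ≤ l' := by
    have : (1 : ℤ) ≤ k := by exact_mod_cast hk
    omega
  have hk0 : (0 : ℝ) < k := by exact_mod_cast hk
  have hl0 : (0 : ℝ) < l := by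
    have : 0 < l := by omega
    exact_mod_cast this
  have hl'0 : (0 : ℝ) < l' := by
    have : 0 < l' := by omega
    exact_mod_cast this
  set s : ℝ := ((l' : ℝ) / l) ^ (α / 2) with hs
  have hs0 : 0 < s := Real.rpow_pos_of_pos (div_pos hl'0 hl0) _
  have hss : s * s = ((l' : ℝ) / l) ^ α := by
    rw [hs, ← Real.rpow_add (div_pos hl'0 hl0)]
    congr 1
    ring
  set Φ : Cfg → ℝ := fun ξ => |J S.D S.e0 ψ k ξ| with hΦ
  set G : Cfg → ℝ := (TJ S u w l x l' \ AA S u w l x l').indicator fun ω => Φ (S.cf ω) with hG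
  have mTA : MeasurableSet (TJ S u w l x l' \ AA S u w l x l') :=
    (dep_TJ S u w l x l').measurableSet.diff (dep_AA S u w l x l').measurableSet
  have depG : Dep (S.F ∪ mF x S.F) G := by
    classical
    intro ω ω' h
    have e1 : (ω ∈ TJ S u w l x l') = (ω' ∈ TJ S u w l x l') := dep_TJ S u w l x l' ω ω' h
    have e2 : (ω ∈ AA S u w l x l') = (ω' ∈ AA S u w l x l') := dep_AA S u w l x l' ω ω' h
    have e3 : S.cf ω = S.cf ω' := ov_congr fun q hq => h q (Finset.mem_union_left _ hq)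
    show Set.indicator _ _ ω = Set.indicator _ _ ω'
    rw [Set.indicator_apply, Set.indicator_apply]
    simp only [Set.mem_sdiff, e1, e2, e3]
  have hstop : StopSet (Rb S u w l x l') := stop_Rb hB.st
  rw [← integral_indicator mTA, int_stop hstop depG]
  -- the inner integral
  have inner : ∀ ω, ∫ ω', G (glue (↑(Rb S u w l x l' ω)) ω ω') ∂μ ≤ (C1 + C2) / 2 * k * s := by
    intro ω
    by_cases hω : ω ∈ TJ S u w l x l'
    swap
    · have : ∀ ω', G (glue (↑(Rb S u w l x l' ω)) ω ω') = 0 := by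
        intro ω'
        refine Set.indicator_of_notMem (fun h => hω ?_) _
        have h3 := (past_TJ (x := x) hB.st hF hl).glue ω ω'
        have h4 : (glue (↑(Rb S u w l x l' ω)) ω ω' ∈ TJ S u w l x l') = (ω ∈ TJ S u w l x l') := h3
        rw [← h4]
        exact h.1
      simp only [this, integral_zero]
      positivity
    set S' := S.rv (Rb S u w l x l' ω) ω with hS'
    have hok : S'.Ok := rv_ok hB.toOk _ _
    -- the new state
    have fresh' : ∀ v ∈ Lo u w l', v ∈ S.F ∧ v ∉ Rb S u w l x l' ω := by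
      intro v hv
      refine ⟨hB.fresh v (Lo_mono (by omega) hv), fun h => ?_⟩
      rcases Finset.mem_union.1 h with h | h
      · have h3 := (Finset.mem_filter.1 h).2
        have h4 := hv.2.2.2
        omega
      · exact RV_notMem h hv
    obtain ⟨m1, m2, m3, m4⟩ := rv_m (S := S) hB.st (A := Lo u w l') (R := Rb S u w l x l' ω) (ω := ω)
      Finset.subset_union_right fresh'
    have hflat : Flat S.D u w l' :=
      ⟨fun v hv => hB.flat.mem v (Lo_mono (by omega) hv), hB.flat.not⟩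
    have hTA : TA S' u w l' := by
      refine ⟨hok, hflat, fun v hv => ?_⟩
      exact Finset.mem_sdiff.2 (fresh' v hv)
    obtain ⟨t1, t2, t3⟩ := hω
    have htipL : hdv S'.tip ∈ Lo u w l' := by
      rw [m3]
      exact Bs.hit_mem hB.st t2
    have htipQ : hdv S'.tip ∈ Qx x l := by
      rw [m3]
      exact t3 _ (Bs.hit_anti hB.st (Lo_mono hl)) le_rfl
    obtain ⟨b, hb⟩ : ∃ b, b = (hdv S'.tip).1 := ⟨_, rfl⟩
    have hbQ1 := htipQ.1
    have hbQ2 := htipQ.2.1
    rw [← hb] at hbQ1 hbQ2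
    -- escape
    have hesc := h1 S' b (l' - 1) (l - 1) (by omega) (by omega) hok
      (fun v hv => hB.flat.mem v ⟨by have := hv.1; omega, by have := hv.2.1; omega, hv.2.2.1,
        by have := hv.2.2.2; omega⟩)
      (fun y y1 y2 => hB.flat.not y (by omega) (by omega))
      (fun v hv => Finset.mem_sdiff.2 (fresh' v ⟨by have := hv.1; omega, by have := hv.2.1; omega,
        hv.2.2.1, by have := hv.2.2.2; omega⟩))
      (by
        intro v hv
        have hvL : v ∈ Lo u w (4 * l) := ⟨by have := hv.1; omega, by have := hv.2.1; omega,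
          hv.2.2.1, by have := hv.2.2.2; omega⟩
        by_cases hR : v ∈ Rb S u w l x l' ω
        · right
          rcases Finset.mem_union.1 hR with h3 | h3
          · exfalso
            have h4 := (Finset.mem_filter.1 h3).2
            have h5 := hv.2.2.2
            omega
          · rw [m4]
            exact (mem_RV.1 h3).2
        · exact Or.inl (Finset.mem_sdiff.2 ⟨hB.fresh v hvL, hR⟩))
      ⟨by rw [hb]; omega, by rw [hb]; omega, htipL.2.2.1, by have := htipL.2.2.2; omega⟩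
    have hsm := h2 S' u w l' k ψ hk hkl hTA hψ hψ2
    -- comparison of the integrands
    set V : Set Cfg := {ξ | Visit S'.D S'.e0 S'.m (HB b (l - 1))ᶜ ξ} with hV
    have hcmp : ∀ ω', G (glue (↑(Rb S u w l x l' ω)) ω ω') ≤
        (J S.D S.e0 ψ k (S'.cf ω')) ^ 2 * (s / (2 * k)) +
          (k / (2 * s)) * V.indicator 1 (S'.cf ω') := by
      intro ω'
      have hnn : 0 ≤ (J S.D S.e0 ψ k (S'.cf ω')) ^ 2 * (s / (2 * k)) +
          (k / (2 * s)) * V.indicator (1 : Cfg → ℝ) (S'.cf ω') := by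
        have : 0 ≤ V.indicator (1 : Cfg → ℝ) (S'.cf ω') :=
          Set.indicator_nonneg (fun _ _ => zero_le_one) _
        positivity
      by_cases hmem : glue (↑(Rb S u w l x l' ω)) ω ω' ∈ TJ S u w l x l' \ AA S u w l x l'
      swap
      · rw [hG, Set.indicator_of_notMem hmem]
        exact hnn
      · rw [hG, Set.indicator_of_mem hmem, cf_glue]
        have hvis : S'.cf ω' ∈ V := by
          have h3 := hmem.2
          have h4 := hmem.1
          obtain ⟨-, r2, r3⟩ := h4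
          have h5 : ¬ ∀ i, hit S.D S.e0 (Lo u w l) (S.cf (glue (↑(Rb S u w l x l' ω)) ω ω')) ≤ i →
              i < ex S.D S.e0 (S.cf (glue (↑(Rb S u w l x l' ω)) ω ω')) →
              hdv (st S.e0 (S.cf (glue (↑(Rb S u w l x l' ω)) ω ω')) i) ∈ Q2 x l :=
            fun h => h3 ⟨hmem.1, h⟩
          push Not at h5
          obtain ⟨i, i1, i2, i3⟩ := h5
          obtain ⟨-, e7⟩ := RV_path (S := S) hB.st (A := Lo u w l') (ω := ω)
            (ω' := glue (↑(Rb S u w l x l' ω)) ω ω') (fun q hq =>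
              glue_mem (Finset.mem_coe.2 (Finset.mem_union_right _ hq)))
          have h6 : S'.m ≤ i := by
            rw [m2]
            by_contra hcon
            have h7 := r3 i i1 (by rw [e7]; omega)
            apply i3
            exact ⟨by have := h7.1; omega, by have := h7.2.1; omega, h7.2.2.1, h7.2.2.2⟩
          rw [cf_glue] at i2 i3
          have i3' : hdv (st S.e0 (S'.cf ω') i) ∉ Q2 x l := i3
          refine ⟨i, h6, i2, fun h8 => i3' ?_⟩
          have h8' : hdv (st S.e0 (S'.cf ω') i) ∈ HB b (l - 1) := h8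
          exact ⟨by have := h8'.1; omega, by have := h8'.2.1; omega, h8'.2.2.1,
            by have := h8'.2.2.2; omega⟩
        rw [Set.indicator_of_mem hvis, Pi.one_apply, mul_one]
        show |J S.D S.e0 ψ k (S'.cf ω')| ≤ _
        set j := J S.D S.e0 ψ k (S'.cf ω') with hj
        have h9 : 0 ≤ (|j| * s - k) ^ 2 := sq_nonneg _
        have h10 : |j| ^ 2 = j ^ 2 := sq_abs j
        have h11 : j ^ 2 * (s / (2 * k)) + k / (2 * s) - |j| = (|j| * s - k) ^ 2 / (2 * k * s) := by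
          rw [← h10]
          field_simp
          ring
        have h12 : 0 ≤ (|j| * s - k) ^ 2 / (2 * k * s) := by positivity
        linarith
    have int1 : Integrable (fun ω' => (J S.D S.e0 ψ k (S'.cf ω')) ^ 2 * (s / (2 * k))) μ :=
      (dep_cf S' fun ξ => (J S.D S.e0 ψ k ξ) ^ 2 * (s / (2 * k))).integrable
    have int2 : Integrable (fun ω' => (k / (2 * s)) * V.indicator (1 : Cfg → ℝ) (S'.cf ω')) μ :=
      (dep_cf S' fun ξ => (k / (2 * s)) * V.indicator (1 : Cfg → ℝ) ξ).integrable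
    have hGi : Integrable (fun ω' => G (glue (↑(Rb S u w l x l' ω)) ω ω')) μ := by
      have : Dep (S.F ∪ mF x S.F) fun ω' => G (glue (↑(Rb S u w l x l' ω)) ω ω') := by
        intro a b' h
        refine depG _ _ fun q hq => ?_
        by_cases hqR : q ∈ (↑(Rb S u w l x l' ω) : Set (ℤ × ℤ))
        · rw [glue_mem hqR, glue_mem hqR]
        · rw [glue_not_mem hqR, glue_not_mem hqR]
          exact h q hq
      exact this.integrable
    have hmono := integral_mono hGi (int1.add int2) hcmp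
    simp only [Pi.add_apply] at hmono
    rw [integral_add int1 int2, integral_mul_const, integral_const_mul] at hmono
    have e1 : ∫ ω', (J S.D S.e0 ψ k (S'.cf ω')) ^ 2 ∂μ ≤ C2 * (k : ℝ) ^ 2 := hsm
    have e2 : ∫ ω', V.indicator (1 : Cfg → ℝ) (S'.cf ω') ∂μ ≤ C1 * (s * s) := by
      have mV : MeasurableSet {ω' | S'.cf ω' ∈ V} :=
        Dep.measurableSet (dep_cf S' fun ξ => ξ ∈ V)
      have e3 : (fun ω' => V.indicator (1 : Cfg → ℝ) (S'.cf ω')) =
          {ω' | S'.cf ω' ∈ V}.indicator 1 := by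
        funext ω'
        by_cases h : S'.cf ω' ∈ V
        · rw [Set.indicator_of_mem h, Set.indicator_of_mem (show ω' ∈ {ω' | S'.cf ω' ∈ V} from h)]
          rfl
        · rw [Set.indicator_of_notMem h,
            Set.indicator_of_notMem (show ω' ∉ {ω' | S'.cf ω' ∈ V} from h)]
      rw [e3, integral_indicator_one mV]
      refine le_trans hesc ?_
      rw [hss]
      refine mul_le_mul_of_nonneg_left ?_ hC1.le
      refine Real.rpow_le_rpow ?_ ?_ hα.le
      · have : (0 : ℝ) ≤ ((l' - 1 : ℤ) : ℝ) := by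
          have : (0 : ℤ) ≤ l' - 1 := by omega
          exact_mod_cast this
        have h3 : (0 : ℝ) ≤ ((l - 1 : ℤ) : ℝ) := by
          have : (0 : ℤ) ≤ l - 1 := by omega
          exact_mod_cast this
        positivity
      · have h3 : (0 : ℝ) < ((l - 1 : ℤ) : ℝ) := by
          have : (0 : ℤ) < l - 1 := by omega
          exact_mod_cast this
        rw [div_le_div_iff₀ h3 hl0]
        push_cast
        have h4 : (l' : ℝ) ≤ l := by exact_mod_cast hl
        nlinarith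
    have hkne : (k : ℝ) ≠ 0 := hk0.ne'
    calc ∫ ω', G (glue (↑(Rb S u w l x l' ω)) ω ω') ∂μ
        ≤ (∫ ω', (J S.D S.e0 ψ k (S'.cf ω')) ^ 2 ∂μ) * (s / (2 * k)) +
          k / (2 * s) * ∫ ω', V.indicator (1 : Cfg → ℝ) (S'.cf ω') ∂μ := hmono
      _ ≤ (C2 * (k : ℝ) ^ 2) * (s / (2 * k)) + k / (2 * s) * (C1 * (s * s)) := by
          refine add_le_add (mul_le_mul_of_nonneg_right e1 (by positivity))
            (mul_le_mul_of_nonneg_left e2 (by positivity))
      _ = (C1 + C2) / 2 * k * s := by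
          field_simp
          ring
  have houter : ∫ ω, ∫ ω', G (glue (↑(Rb S u w l x l' ω)) ω ω') ∂μ ∂μ ≤
      ∫ _ω : Cfg, (C1 + C2) / 2 * k * s ∂μ := by
    refine integral_mono_of_nonneg (ae_of_all _ fun ω => ?_) (integrable_const _)
      (ae_of_all _ inner)
    refine integral_nonneg fun ω' => ?_
    exact Set.indicator_nonneg (fun _ _ => abs_nonneg _) _
  refine houter.trans ?_
  rw [integral_const]
  simp

end Vale.Agent.P167.H318
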