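import Vale.Agent.P167.H318.Bad
import Vale.Agent.P167.H704.RecDefs

namespace Vale.Agent.P167.H318

theorem badP : ESC → SM → H704.BAD := fun hE hS => bad hE hS

end Vale.Agent.P167.H318
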