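import Vale.Agent.P167.H318.Pot
import Vale.Agent.P167.H166.Arc

/-!
# P167, block NSYM: strands, hitting times
-/

namespace Vale.Agent.P167.H318.Bs

open Vale.Agent.P167 Vale.Agent.P167.H192 Vale.Agent.P145.FB Vale.Agent.P167.H558
open MeasureTheory Relation

variable {D : Finset (ℤ × ℤ)} {e0 : Ed} {ξ ξ' : Cfg} {A B : Set (ℤ × ℤ)}

theorem st_zero : st e0 ξ 0 = e0 := rfl

theorem st_succ (i : ℕ) : st e0 ξ (i + 1) = nx ξ (st e0 ξ i) :=
  Function.iterate_succ_apply' _ _ _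

theorem st_add (i j : ℕ) : st e0 ξ (i + j) = st (st e0 ξ i) ξ j := by
  rw [st, st, st, ← Function.iterate_add_apply, add_comm]

theorem tlv_st (i : ℕ) : tlv (st e0 ξ (i + 1)) = hdv (st e0 ξ i) := by
  rw [st_succ, tlv_nx]

/-- two configurations which agree on the squares read before time `n` -/
theorem st_congr {n : ℕ} (h : ∀ i < n, ξ' (hdv (st e0 ξ i)) = ξ (hdv (st e0 ξ i))) :
    ∀ i ≤ n, st e0 ξ' i = st e0 ξ i := by
  intro i
  induction i with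
  | zero => exact fun _ => rfl
  | succ i ih =>
    intro hi
    rw [st_succ, st_succ, ih (by omega)]
    exact H192.nx_congr (h i (by omega))

/-- the strand leaves `D` -/
theorem exit_exists (h0 : tlv e0 ∉ D) (ξ : Cfg) : ∃ n, hdv (st e0 ξ n) ∉ D := by
  by_contra hcon
  push Not at hcon
  have h1 := (H166.touch_finite D).subset
    (show Set.range (st e0 ξ) ⊆ {e : Ed | hdv e ∈ D ∨ tlv e ∈ D} by
      rintro _ ⟨m, rfl⟩
      exact Or.inl (hcon m))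
  obtain ⟨i, -, j, -, hij, h2⟩ := Set.infinite_univ.exists_ne_map_eq_of_mapsTo
    (fun m _ => Set.mem_range_self m) h1
  have key : ∀ i j : ℕ, i < j → st e0 ξ i ≠ st e0 ξ j := by
    intro i j hij h
    obtain ⟨k, rfl⟩ : ∃ k, j = k + 1 + i := ⟨j - i - 1, by omega⟩
    have h3 : e0 = st e0 ξ (k + 1) := by
      apply ((s_nx ξ).1.iterate i)
      show (nx ξ)^[i] e0 = (nx ξ)^[i] ((nx ξ)^[k + 1] e0)
      rw [← Function.iterate_add_apply, add_comm]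
      exact h
    apply h0
    rw [h3, tlv_st]
    exact hcon k
  rcases lt_or_gt_of_ne hij with h3 | h3
  · exact key i j h3 h2
  · exact key j i h3 h2.symm

/-- injectivity up to the exit -/
theorem st_inj (h0 : tlv e0 ∉ D) {i j : ℕ} (hij : i < j) (hj : ∀ k < j, hdv (st e0 ξ k) ∈ D) :
    st e0 ξ i ≠ st e0 ξ j := by
  intro h
  obtain ⟨k, rfl⟩ : ∃ k, j = k + 1 + i := ⟨j - i - 1, by omega⟩
  have h3 : e0 = st e0 ξ (k + 1) := by
    apply ((s_nx ξ).1.iterate i)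
    show (nx ξ)^[i] e0 = (nx ξ)^[i] ((nx ξ)^[k + 1] e0)
    rw [← Function.iterate_add_apply, add_comm]
    exact h
  apply h0
  rw [h3, tlv_st]
  exact hj k (by omega)

theorem hit_spec (h0 : tlv e0 ∉ D) (A : Set (ℤ × ℤ)) (ξ : Cfg) :
    hdv (st e0 ξ (hit D e0 A ξ)) ∈ A ∨ hdv (st e0 ξ (hit D e0 A ξ)) ∉ D := by
  obtain ⟨n, hn⟩ := exit_exists h0 ξ
  exact Nat.sInf_mem (s := {n | hdv (st e0 ξ n) ∈ A ∨ hdv (st e0 ξ n) ∉ D}) ⟨n, Or.inr hn⟩

theorem hit_min {i : ℕ} (hi : i < hit D e0 A ξ) :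
    hdv (st e0 ξ i) ∉ A ∧ hdv (st e0 ξ i) ∈ D := by
  have := Nat.notMem_of_lt_sInf hi
  simp only [Set.mem_ofPred_eq, not_or, not_not] at this
  exact this

theorem hit_le {i : ℕ} (h : hdv (st e0 ξ i) ∈ A ∨ hdv (st e0 ξ i) ∉ D) : hit D e0 A ξ ≤ i :=
  Nat.sInf_le h

theorem ex_spec (h0 : tlv e0 ∉ D) (ξ : Cfg) : hdv (st e0 ξ (ex D e0 ξ)) ∉ D := by
  rcases hit_spec h0 (∅ : Set (ℤ × ℤ)) ξ with h | h
  · exact absurd h (Set.notMem_empty _)
  · exact h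

theorem ex_min {i : ℕ} (hi : i < ex D e0 ξ) : hdv (st e0 ξ i) ∈ D := (hit_min hi).2

theorem ex_le {i : ℕ} (h : hdv (st e0 ξ i) ∉ D) : ex D e0 ξ ≤ i := hit_le (Or.inr h)

theorem le_ex (h0 : tlv e0 ∉ D) {i : ℕ} (h : ∀ j < i, hdv (st e0 ξ j) ∈ D) : i ≤ ex D e0 ξ := by
  by_contra hcon
  exact ex_spec h0 ξ (h _ (not_le.1 hcon))

theorem hit_le_ex (h0 : tlv e0 ∉ D) : hit D e0 A ξ ≤ ex D e0 ξ := hit_le (Or.inr (ex_spec h0 ξ))

theorem hit_anti (h0 : tlv e0 ∉ D) (h : A ⊆ B) : hit D e0 B ξ ≤ hit D e0 A ξ := by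
  rcases hit_spec h0 A ξ with h1 | h1
  · exact hit_le (Or.inl (h h1))
  · exact hit_le (Or.inr h1)

/-- the head at the hitting time is in `A` if the strand has not left `D` -/
theorem hit_mem (h0 : tlv e0 ∉ D) (h : hit D e0 A ξ < ex D e0 ξ) :
    hdv (st e0 ξ (hit D e0 A ξ)) ∈ A := by
  rcases hit_spec h0 A ξ with h1 | h1
  · exact h1
  · exact absurd (ex_min h) h1

theorem hit_eq_of {n : ℕ} (h : hdv (st e0 ξ n) ∈ A ∨ hdv (st e0 ξ n) ∉ D)
    (h' : ∀ i < n, hdv (st e0 ξ i) ∉ A ∧ hdv (st e0 ξ i) ∈ D) : hit D e0 A ξ = n := by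
  refine le_antisymm (hit_le h) ?_
  by_contra hcon
  have h1 := Nat.sInf_mem (s := {n | hdv (st e0 ξ n) ∈ A ∨ hdv (st e0 ξ n) ∉ D}) ⟨n, h⟩
  have h2 := h' _ (not_le.1 hcon)
  rcases h1 with h1 | h1
  · exact h2.1 h1
  · exact h1 h2.2

/-- equal paths up to the hitting time have equal hitting times -/
theorem hit_congr (h0 : tlv e0 ∉ D) (h : ∀ i ≤ hit D e0 A ξ, st e0 ξ' i = st e0 ξ i) :
    hit D e0 A ξ' = hit D e0 A ξ := by
  refine hit_eq_of ?_ ?_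
  · rw [h _ le_rfl]
    exact hit_spec h0 A ξ
  · intro i hi
    rw [h i hi.le]
    exact hit_min hi

/-- if two configurations agree on the squares of `D` off `A`, the paths agree up to the hitting
time -/
theorem st_hit_congr (h0 : tlv e0 ∉ D) (h : ∀ q ∈ D, q ∉ A → ξ' q = ξ q) :
    (∀ i ≤ hit D e0 A ξ, st e0 ξ' i = st e0 ξ i) ∧ hit D e0 A ξ' = hit D e0 A ξ := by
  have h1 : ∀ i ≤ hit D e0 A ξ, st e0 ξ' i = st e0 ξ i :=
    st_congr fun i hi => h _ (hit_min hi).2 (hit_min hi).1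
  exact ⟨h1, hit_congr h0 h1⟩

end Vale.Agent.P167.H318.Bs
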