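import Vale.Agent.P167.H318.Defs

/-!
# P167, block NSYM: the complement of `D` without its low zone is connected
-/

namespace Vale.Agent.P167.H318

open Relation

theorem Adj.symm {a b : ℤ × ℤ} (h : Adj a b) : Adj b a := by
  unfold Adj at *
  omega

theorem coConn_cut {D : Finset (ℤ × ℤ)} {u w h : ℤ} (hD : CoConn D) (hF : Flat D u w h)
    [DecidablePred fun v : ℤ × ℤ => v ∉ Lo u w h] :
    CoConn (D.filter fun v => v ∉ Lo u w h) := by
  have mem : ∀ v : ℤ × ℤ, v ∉ (D.filter fun v => v ∉ Lo u w h) ↔ v ∉ D ∨ v ∈ Lo u w h := by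
    intro v
    simp only [Finset.mem_filter, not_and, not_not]
    tauto
  set D' := D.filter fun v => v ∉ Lo u w h with hD'
  -- down
  have down : ∀ (n : ℕ) (a : ℤ), (a, (n : ℤ)) ∈ Lo u w h →
      ReflTransGen (fun a b => Adj a b ∧ b ∉ D') (a, (n : ℤ)) (a, -1) ∧
      ReflTransGen (fun a b => Adj a b ∧ b ∉ D') (a, -1) (a, (n : ℤ)) := by
    intro n
    induction n with
    | zero =>
      intro a ha
      have h1 : Adj (a, ((0 : ℕ) : ℤ)) (a, -1) := Or.inl ⟨rfl, Or.inr (by simp)⟩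
      exact ⟨.single ⟨h1, (mem _).2 (Or.inl (hF.not a ha.1 ha.2.1))⟩,
        .single ⟨h1.symm, (mem _).2 (Or.inr ha)⟩⟩
    | succ n ih =>
      intro a ha
      have ha' : (a, (n : ℤ)) ∈ Lo u w h := by
        obtain ⟨h1, h2, h3, h4⟩ := ha
        refine ⟨h1, h2, by simp, ?_⟩
        dsimp only at h4 ⊢
        push_cast at h4
        omega
      have h1 : Adj (a, ((n + 1 : ℕ) : ℤ)) (a, (n : ℤ)) := Or.inl ⟨rfl, Or.inr (by push_cast; ring)⟩
      exact ⟨(ReflTransGen.single ⟨h1, (mem _).2 (Or.inr ha')⟩).trans (ih a ha').1,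
        (ih a ha').2.trans (.single ⟨h1.symm, (mem _).2 (Or.inr ha)⟩)⟩
  have proj : ∀ a, a ∉ D' → ∃ a', a' ∉ D ∧
      ReflTransGen (fun a b => Adj a b ∧ b ∉ D') a a' ∧
      ReflTransGen (fun a b => Adj a b ∧ b ∉ D') a' a := by
    intro a ha
    rcases (mem a).1 ha with h1 | h1
    · exact ⟨a, h1, .refl, .refl⟩
    · obtain ⟨n, hn⟩ : ∃ n : ℕ, a.2 = n := ⟨a.2.toNat, by have := h1.2.2.1; omega⟩
      have e : a = (a.1, (n : ℤ)) := by rw [← hn]
      rw [e] at h1 ⊢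
      exact ⟨(a.1, -1), hF.not _ h1.1 h1.2.1, down n _ h1⟩
  intro a b ha hb
  obtain ⟨a', h1, h2, -⟩ := proj a ha
  obtain ⟨b', h4, -, h6⟩ := proj b hb
  refine h2.trans (ReflTransGen.trans ?_ h6)
  have h7 := hD a' b' h1 h4
  clear h4 h6
  induction h7 with
  | refl => exact .refl
  | @tail p q _ hpq ih => exact ih.tail ⟨hpq.1, (mem _).2 (Or.inl hpq.2)⟩

end Vale.Agent.P167.H318
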