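import Vale.Agent.P167.H318.Flow

/-!
# P167, block NSYM, GT part 3: confinement
-/

namespace Vale.Agent.P167.H318

open Vale.Agent.P167 Vale.Agent.P167.H192 Vale.Agent.P145.FB Vale.Agent.P167.H558
open MeasureTheory Relation
open Vale.Agent.P167.H632 (Ex sq_inl sq_inr ex_rect ls_par rs_par)

theorem even_ls (e : Ed) : Even ((ls e).1 + (ls e).2) := Int.even_iff.2 (ls_par e)

theorem odd_rs (e : Ed) : Odd ((rs e).1 + (rs e).2) := Int.odd_iff.2 (rs_par e)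

theorem ex_Qx (x l : ℤ) : Ex (Qx x l) := by
  have := ex_rect (x - 4 * l + 1) (x + 4 * l) 0 (4 * l)
  convert this using 1
  ext v
  simp only [Qx, Set.mem_ofPred_eq]
  omega

/-- squares of the steps in the box -/
theorem Bx_sq {x l : ℤ} : ∀ s ∈ Bx x l, ∀ s' ∈ Bx x l, ∀ v, PStep {v} s s' → v ∈ Qx x l := by
  rintro s ⟨a1, a2, a3, a4⟩ s' ⟨b1, b2, b3, b4⟩ v ⟨h1, h2, h3⟩
  rw [Set.mem_singleton_iff] at h3
  subst h3
  refine ⟨?_, ?_, ?_, ?_⟩ <;> dsimp only <;> omega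

/-- paths of another configuration -/
theorem PConn_congr {F F' Rg Q : Set (ℤ × ℤ)}
    (hR : ∀ s ∈ Rg, ∀ s' ∈ Rg, ∀ v, PStep {v} s s' → v ∈ Q) (hF : ∀ v ∈ Q, v ∈ F → v ∈ F')
    {a b : ℤ × ℤ} (h : PConn F Rg a b) : PConn F' Rg a b := by
  obtain ⟨h1, h2⟩ := h
  have key : b ∈ Rg ∧ ReflTransGen (fun x y => PStep F' x y ∧ y ∈ Rg) a b := by
    induction h2 with
    | refl => exact ⟨h1, ReflTransGen.refl⟩
    | @tail b c _ hbc ih =>
      obtain ⟨v, hv, hst, hvv⟩ := pstep_sq hbc.1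
      refine ⟨hbc.2, ih.2.tail ⟨⟨hbc.1.1, hbc.1.2.1, ?_⟩, hbc.2⟩⟩
      rw [← hvv]
      exact hF v (hR b ih.1 c hbc.2 v hst) hv
  exact ⟨h1, key.2⟩

/-- along a row of sites -/
theorem row_const {u : ℤ × ℤ → ℤ} {a b : ℤ} (hab : a ≤ b)
    (h : ∀ s, a ≤ s → s < b → u (s, 0) = u (s + 1, 0)) : u (a, 0) = u (b, 0) := by
  obtain ⟨n, rfl⟩ : ∃ n : ℕ, b = a + n := ⟨(b - a).toNat, by omega⟩
  induction n with
  | zero => simp
  | succ n ih =>
    rw [ih (by omega) (fun s h1 h2 => h s h1 (by push_cast; omega)), h (a + n) (by omega)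
      (by push_cast; omega)]
    congr 2
    push_cast
    ring

theorem cnt_nonneg (e0 : Ed) (ξ : Cfg) (n : ℕ) (e : Ed) : 0 ≤ cnt e0 ξ n e :=
  Finset.sum_nonneg fun i _ => by split_ifs <;> norm_num

theorem one_le_cnt {e0 : Ed} {ξ : Cfg} {n i : ℕ} (hi : i ≤ n) : 1 ≤ cnt e0 ξ n (st e0 ξ i) := by
  have h := Finset.single_le_sum (f := fun j => if st e0 ξ j = st e0 ξ i then (1 : ℤ) else 0)
    (s := Finset.range (n + 1)) (fun j _ => by split_ifs <;> norm_num)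
    (Finset.mem_range.2 (Nat.lt_succ_of_le hi))
  rw [if_pos rfl] at h
  exact h

/-- **confinement, deterministic form**: a strand through `e` in the box, whose left site is joined to
the side by an open path of the box and whose right site is joined to the side by a dual path of the
box, stays in the box until it lands -/
theorem gt3' {D : Finset (ℤ × ℤ)} {e0 : Ed} {ξ : Cfg} {x l : ℤ} {i : ℕ} (h0 : tlv e0 ∉ D)
    (hQ : ∀ v ∈ Qx x l, v ∈ D) (hs : ∀ s, (s, (0 : ℤ)) ∈ Qx x l → (s, (-1 : ℤ)) ∉ D)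
    (hne : ∀ s, (s, (0 : ℤ)) ∈ Qx x l → e0 ≠ Sum.inr (s, -1))
    (hi : i < ex D e0 ξ) (h2 : hdv (st e0 ξ i) ∈ Qx x l)
    (hp : ∃ p : ℤ × ℤ, p.2 = 0 ∧ PConn (op ξ) (Bx x l) (ls (st e0 ξ i)) p)
    (hp' : ∃ p : ℤ × ℤ, p.2 = 0 ∧ PConn (op ξ)ᶜ (Bx x l) (rs (st e0 ξ i)) p) :
    ∀ j, i ≤ j → j < ex D e0 ξ → hdv (st e0 ξ j) ∈ Qx x l := by
  classical
  -- the last entrance of the box before time `i`
  have hm : ∃ m, m ≤ i ∧ tlv (st e0 ξ m) ∉ Qx x l ∧ ∀ k, m < k → k ≤ i → tlv (st e0 ξ k) ∈ Qx x l := by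
    have hex : ∃ k, k ≤ i ∧ tlv (st e0 ξ (i - k)) ∉ Qx x l := ⟨i, le_rfl, fun h => h0 (by
      rw [Nat.sub_self] at h
      exact hQ _ h)⟩
    refine ⟨i - Nat.find hex, Nat.sub_le _ _, (Nat.find_spec hex).2, fun k hk hk' => ?_⟩
    by_contra hcon
    have := Nat.find_min hex (m := i - k) (by omega)
    exact this ⟨by omega, by rw [Nat.sub_sub_self hk']; exact hcon⟩
  obtain ⟨m, hmi, hm1, -⟩ := hm
  -- the first exit of the box after time `i`
  have hn : ∃ n, i ≤ n ∧ hdv (st e0 ξ n) ∉ Qx x l :=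
    ⟨ex D e0 ξ, hi.le, fun h => Bs.ex_spec h0 ξ (hQ _ h)⟩
  obtain ⟨hn1, hn2⟩ := Nat.find_spec hn
  have hn3 : ∀ k, i ≤ k → k < Nat.find hn → hdv (st e0 ξ k) ∈ Qx x l := by
    intro k hk hk'
    by_contra hcon
    exact Nat.find_min hn hk' ⟨hk, hcon⟩
  set n := Nat.find hn with hndef
  have hnex : n ≤ ex D e0 ξ := by
    rw [hndef]
    exact Nat.find_le ⟨hi.le, fun h => Bs.ex_spec h0 ξ (hQ _ h)⟩
  -- potential
  have hst : ∀ k, st (st e0 ξ m) ξ k = st e0 ξ (m + k) := fun k => (Bs.st_add m k).symm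
  obtain ⟨u, hu⟩ := walk_pot (ex_Qx x l) (e0 := st e0 ξ m) (ξ := ξ) (n := n - m) hm1
    (by rw [hst, Nat.add_sub_cancel' (by omega)]; exact hn2)
  have hend : hdv (st (st e0 ξ m) ξ (n - m)) ∉ Qx x l := by
    rw [hst, Nat.add_sub_cancel' (by omega)]; exact hn2
  have hc : 1 ≤ cnt (st e0 ξ m) ξ (n - m) (st e0 ξ i) := by
    have := one_le_cnt (e0 := st e0 ξ m) (ξ := ξ) (n := n - m) (i := i - m) (by omega)
    rwa [hst, Nat.add_sub_cancel' hmi] at this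
  have h3 := hu _ (Or.inl h2)
  obtain ⟨p, p1, p2⟩ := hp
  obtain ⟨q, q1, q2⟩ := hp'
  have h4 := pot_open_path hu hm1 hend Bx_sq (even_ls _) p2
  have h5 := pot_dual_path hu hm1 hend Bx_sq (odd_rs _) q2
  have h6 : u p ≠ u q := by omega
  have hpB := p2.right_mem
  have hqB := q2.right_mem
  -- an edge of the row is passed
  have h7 : ∃ s, (s, (0 : ℤ)) ∈ Qx x l ∧ cnt (st e0 ξ m) ξ (n - m) (Sum.inr (s, -1)) ≠ 0 := by
    by_contra hcon
    push Not at hcon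
    have hstep : ∀ s, (s, (0 : ℤ)) ∈ Qx x l → u (s, 0) = u (s + 1, 0) := by
      intro s hs'
      have h8 := hcon s hs'
      rcases sq_inr (s, (-1 : ℤ)) with ⟨a1, a2, -, a3, a4⟩ | ⟨a1, a2, -, a3, a4⟩
      · have h9 := hu (Sum.inr (s, -1)) (Or.inr (by rw [a2]; simpa using hs'))
        rw [h8, a3, a4] at h9
        simpa using h9.symm
      · have h9 := hu (Sum.inr (s, -1)) (Or.inl (by rw [a1]; simpa using hs'))
        rw [h8, a3, a4] at h9
        simpa using h9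
    obtain ⟨a1, a2, a3, a4⟩ := hpB
    obtain ⟨b1, b2, b3, b4⟩ := hqB
    have hl : 1 ≤ l := by
      obtain ⟨c1, c2, c3, c4⟩ := h2
      omega
    apply h6
    have e1 : p = (p.1, 0) := by rw [← p1]
    have e2 : q = (q.1, 0) := by rw [← q1]
    rw [e1, e2]
    rcases le_total p.1 q.1 with hle | hle
    · exact row_const hle fun s h8 h9 => hstep s ⟨by dsimp only; omega, by dsimp only; omega,
        le_rfl, by dsimp only; omega⟩
    · exact (row_const hle fun s h8 h9 => hstep s ⟨by dsimp only; omega, by dsimp only; omega,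
        le_rfl, by dsimp only; omega⟩).symm
  obtain ⟨s, hs1, hs2⟩ := h7
  obtain ⟨k, hk1, hk2⟩ := cnt_pos hs2
  rw [hst] at hk2
  -- it is the exit
  have hexit : ex D e0 ξ ≤ m + k := by
    rcases sq_inr (s, (-1 : ℤ)) with ⟨a1, a2, -⟩ | ⟨a1, a2, -⟩
    · refine Bs.ex_le ?_
      rw [hk2, a1]
      exact hs s hs1
    · exfalso
      rcases Nat.eq_zero_or_pos (m + k) with h8 | h8
      · apply hne s hs1
        rw [← hk2, h8]
        rfl
      · have h9 : hdv (st e0 ξ (m + k - 1)) ∈ D := Bs.ex_min (by omega)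
        rw [← Bs.tlv_st, show m + k - 1 + 1 = m + k by omega, hk2, a2] at h9
        exact hs s hs1 h9
  intro j hj hj'
  exact hn3 j hj (by omega)

/-- **GT3**: confinement -/
theorem gt3 {S : St} {u w l H x : ℤ} (h1 : 1 ≤ l) (hT : TB S u w (4 * l) H x)
    (hxl : u - w ≤ x - 8 * l) (hxr : x + 8 * l ≤ u + w) {ω : Cfg} {i : ℕ}
    (hi : i < ex S.D S.e0 (S.cf ω)) (h2 : hdv (st S.e0 (S.cf ω) i) ∈ Qx x l)
    (hp : ∃ p : ℤ × ℤ, p.2 = 0 ∧ PConn (op ω) (Bx x l) (ls (st S.e0 (S.cf ω) i)) p)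
    (hp' : ∃ p : ℤ × ℤ, p.2 = 0 ∧ PConn (op ω)ᶜ (Bx x l) (rs (st S.e0 (S.cf ω) i)) p) :
    ∀ j, i ≤ j → j < ex S.D S.e0 (S.cf ω) → hdv (st S.e0 (S.cf ω) j) ∈ Qx x l := by
  have hlo : ∀ v ∈ Qx x l, v ∈ Lo u w (4 * l) := fun v hv =>
    ⟨by have := hv.1; omega, by have := hv.2.1; omega, hv.2.2.1, hv.2.2.2⟩
  have hcf : ∀ v ∈ Qx x l, S.cf ω v = ω v := fun v hv => ov_mem (hT.fresh _ (hlo v hv))
  refine gt3' hT.st (fun v hv => hT.flat.mem _ (hlo v hv)) ?_ ?_ hi h2 ?_ ?_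
  · intro s hs
    obtain ⟨a1, a2, -, -⟩ := hlo _ hs
    exact hT.flat.not s a1 a2
  · intro s hs he
    have hd : hdv S.e0 ∈ S.F := by
      rcases sq_inr (s, (-1 : ℤ)) with ⟨a1, a2, -⟩ | ⟨a1, a2, -⟩
      · exfalso
        have h3 := hT.st
        rw [he, a2] at h3
        exact h3 (hT.flat.mem _ (hlo _ (by simpa using hs)))
      · rw [he, a1]
        exact hT.fresh _ (hlo _ (by simpa using hs))
    have hm : S.m = 0 := by
      have : S.m ≤ 0 := Bs.hit_le (Or.inl (by exact_mod_cast hd))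
      omega
    have htip := hT.tip
    unfold St.tip at htip
    rw [hm] at htip
    have : S.e0 = Sum.inr (x, 4 * l - 1) := htip
    rw [he, Sum.inr.injEq, Prod.mk.injEq] at this
    omega
  · obtain ⟨p, p1, p2⟩ := hp
    exact ⟨p, p1, PConn_congr Bx_sq (fun v hv (hv' : ω v = true) => (by
      show S.cf ω v = true
      rw [hcf v hv]; exact hv')) p2⟩
  · obtain ⟨p, p1, p2⟩ := hp'
    exact ⟨p, p1, PConn_congr Bx_sq (fun v hv (hv' : ¬ ω v = true) => (by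
      show ¬ S.cf ω v = true
      rw [hcf v hv]; exact hv')) p2⟩

end Vale.Agent.P167.H318
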