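import Vale.Agent.P167.H318.Contact
import Vale.Agent.P167.H318.MK
import Vale.Agent.P167.H318.GT3
import Vale.Agent.P167.H318.Co

/-!
# P167, block NSYM, GT part 3: the topology of the gate
-/

namespace Vale.Agent.P167.H318

open Vale.Agent.P167 Vale.Agent.P167.H192 Vale.Agent.P145.FB Vale.Agent.P167.H558
open MeasureTheory Relation
open Vale.Agent.P167.H632 (Ex sq_inl sq_inr ex_rect)

set_option linter.unusedVariables false

/-- cutting the low zone -/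
def CoCut : Prop := ∀ (D : Finset (ℤ × ℤ)) (u w h : ℤ), CoConn D → Flat D u w h →
  ∃ D' : Finset (ℤ × ℤ), (∀ v, v ∈ D' ↔ v ∈ D ∧ v ∉ Lo u w h) ∧ CoConn D'

section

variable {S : St} {u w l H x : ℤ}

theorem TB.tip_hdv (h : TB S u w (4 * l) H x) : hdv S.tip = (x, 4 * l - 1) := by
  rw [h.tip]
  simp [hdv, h.ev]

theorem TB.ls_tip (h : TB S u w (4 * l) H x) : ls S.tip = (x + 1, 4 * l) := by
  rw [h.tip]
  simp [ls, h.ev]

theorem TB.rs_tip (h : TB S u w (4 * l) H x) : rs S.tip = (x, 4 * l) := by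
  rw [h.tip]
  simp [rs, h.ev]

/-- values of the potential east of the tip -/
theorem east {U : ℤ × ℤ → ℤ} (hB : TB S u w (4 * l) H x) (hl : 1 ≤ l) (hx1 : u - w ≤ x - 8 * l)
    (hx2 : x + 8 * l ≤ u + w) (hU : Pt0 S x (4 * l) U) {a : ℤ × ℤ} (h1 : x + 1 ≤ a.1)
    (h2 : a.1 ≤ x + 4 * l) (h3 : 0 ≤ a.2) (h4 : a.2 ≤ 4 * l) : U a = U (ls S.tip) := by
  have hfl : ∀ i j : ℤ, x + 1 ≤ i → i ≤ x + 4 * l → 0 ≤ j → j ≤ 4 * l - 1 → FlatAt U (i, j) := by
    intro i j k1 k2 k3 k4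
    have hLo : ((i, j) : ℤ × ℤ) ∈ Lo u w (4 * l) :=
      ⟨by dsimp only; omega, by dsimp only; omega, k3, by dsimp only; omega⟩
    refine hU.flat hB.toOk (by omega) hB.tip_hdv (hB.flat.mem _ hLo) (fun h => ?_) (fun h => ?_)
    · exact (hs_notF h).1 (hB.fresh _ hLo)
    · have := h.1
      dsimp only at this
      omega
  have row : ∀ n : ℕ, x + 1 + n ≤ x + 4 * l → U (x + 1 + n, 4 * l) = U (ls S.tip) := by
    intro n
    induction n with
    | zero => intro _; rw [hB.ls_tip]; simp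
    | succ n ih =>
      intro hn
      have := hfl (x + 1 + n) (4 * l - 1) (by omega) (by push_cast at hn; omega) (by omega) le_rfl
      obtain ⟨f1, f2, f3⟩ := this
      dsimp only at f2 f3
      have e1 : 4 * l - 1 + 1 = 4 * l := by ring
      rw [e1] at f2 f3
      rw [← ih (by push_cast at hn; omega), f2, ← f3]
      congr 2
      push_cast; ring
  have column : ∀ n : ℕ, (n : ℤ) ≤ 4 * l → U (a.1, 4 * l - n) = U (a.1, 4 * l) := by
    intro n
    induction n with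
    | zero => intro _; simp
    | succ n ih =>
      intro hn
      have := hfl a.1 (4 * l - (n + 1 : ℕ)) h1 h2 (by omega) (by push_cast; omega)
      obtain ⟨f1, f2, f3⟩ := this
      dsimp only at f2
      rw [← ih (by push_cast at hn; omega), ← f2]
      congr 2
      push_cast; ring
  obtain ⟨n, hn⟩ : ∃ n : ℕ, (n : ℤ) = a.1 - (x + 1) := ⟨(a.1 - (x + 1)).toNat, by omega⟩
  obtain ⟨k, hk⟩ : ∃ k : ℕ, (k : ℤ) = 4 * l - a.2 := ⟨(4 * l - a.2).toNat, by omega⟩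
  have r1 := row n (by omega)
  have r2 := column k (by omega)
  have e1 : x + 1 + (n : ℤ) = a.1 := by omega
  have e2 : 4 * l - (k : ℤ) = a.2 := by omega
  rw [e1] at r1
  rw [e2, r1] at r2
  exact r2

/-- values of the potential west of the tip -/
theorem west {U : ℤ × ℤ → ℤ} (hB : TB S u w (4 * l) H x) (hl : 1 ≤ l) (hx1 : u - w ≤ x - 8 * l)
    (hx2 : x + 8 * l ≤ u + w) (hU : Pt0 S x (4 * l) U) {a : ℤ × ℤ} (h1 : x - 4 * l + 1 ≤ a.1)
    (h2 : a.1 ≤ x - 1) (h3 : 0 ≤ a.2) (h4 : a.2 ≤ 4 * l) : U a = U (rs S.tip) := by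
  have hfl : ∀ i j : ℤ, x - 4 * l + 1 ≤ i → i ≤ x - 1 → 0 ≤ j → j ≤ 4 * l - 1 →
      FlatAt U (i, j) := by
    intro i j k1 k2 k3 k4
    have hLo : ((i, j) : ℤ × ℤ) ∈ Lo u w (4 * l) :=
      ⟨by dsimp only; omega, by dsimp only; omega, k3, by dsimp only; omega⟩
    refine hU.flat hB.toOk (by omega) hB.tip_hdv (hB.flat.mem _ hLo) (fun h => ?_) (fun h => ?_)
    · exact (hs_notF h).1 (hB.fresh _ hLo)
    · have := h.1
      dsimp only at this
      omega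
  have row : ∀ n : ℕ, x - 4 * l + 1 ≤ x - n → U (x - n, 4 * l) = U (rs S.tip) := by
    intro n
    induction n with
    | zero => intro _; rw [hB.rs_tip]; simp
    | succ n ih =>
      intro hn
      have := hfl (x - (n + 1 : ℕ)) (4 * l - 1) hn (by push_cast; omega) (by omega) le_rfl
      obtain ⟨f1, f2, f3⟩ := this
      dsimp only at f2 f3
      have e1 : 4 * l - 1 + 1 = 4 * l := by ring
      rw [e1] at f2 f3
      rw [← ih (by push_cast at hn; omega), f2, ← f3]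
      congr 2
      push_cast; ring
  have column : ∀ n : ℕ, (n : ℤ) ≤ 4 * l → U (a.1, 4 * l - n) = U (a.1, 4 * l) := by
    intro n
    induction n with
    | zero => intro _; simp
    | succ n ih =>
      intro hn
      have := hfl a.1 (4 * l - (n + 1 : ℕ)) h1 h2 (by omega) (by push_cast; omega)
      obtain ⟨f1, f2, f3⟩ := this
      dsimp only at f2
      rw [← ih (by push_cast at hn; omega), ← f2]
      congr 2
      push_cast; ring
  obtain ⟨n, hn⟩ : ∃ n : ℕ, (n : ℤ) = x - a.1 := ⟨(x - a.1).toNat, by omega⟩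
  obtain ⟨k, hk⟩ : ∃ k : ℕ, (k : ℤ) = 4 * l - a.2 := ⟨(4 * l - a.2).toNat, by omega⟩
  have r1 := row n (by omega)
  have r2 := column k (by omega)
  have e1 : x - (n : ℤ) = a.1 := by omega
  have e2 : 4 * l - (k : ℤ) = a.2 := by omega
  rw [e1] at r1
  rw [e2, r1] at r2
  exact r2

/-- the squares of the steps in `Cs` -/
theorem cs_sq (hB : TB S u w (4 * l) H x) (hl : 1 ≤ l) (hH : 8 * l ≤ H) (hx1 : u - w ≤ x - 8 * l)
    (hx2 : x + 8 * l ≤ u + w) : ∀ s ∈ Cs x l, ∀ s' ∈ Cs x l, ∀ v, PStep {v} s s' →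
      v ∈ S.D ∧ (v ∈ S.F ∨ v ∈ S.Hs) ∧ ¬ Cl0 x (4 * l) v := by
  rintro ⟨s1, s2⟩ ⟨a1, a2, a3, a4, a5⟩ ⟨t1, t2⟩ ⟨b1, b2, b3, b4, b5⟩ v ⟨h1, h2, h3⟩
  rw [Set.mem_singleton_iff] at h3
  subst h3
  dsimp only at *
  have hLo : ((min s1 t1, min s2 t2) : ℤ × ℤ) ∈ Lo u w H :=
    ⟨by dsimp only; omega, by dsimp only; omega, by dsimp only; omega, by dsimp only; omega⟩
  refine ⟨hB.flat'.mem _ hLo, hB.po _ hLo, ?_⟩
  rintro ⟨c1, c2, c3⟩
  dsimp only at c1 c2 c3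
  omega

theorem cs_low {s s' v : ℤ × ℤ} (hs : s ∈ Cs x l) (hs' : s' ∈ Cs x l) (h : PStep {v} s s') :
    l ≤ v.2 := by
  obtain ⟨h1, h2, h3⟩ := h
  rw [Set.mem_singleton_iff] at h3
  subst h3
  exact le_min hs.2.2.1 hs'.2.2.1

/-- open paths in the box are open in the full configuration -/
theorem bx_open (hB : TB S u w (4 * l) H x) (hx1 : u - w ≤ x - 8 * l) (hl : 1 ≤ l)
    (hx2 : x + 8 * l ≤ u + w) {ω : Cfg} {Rg : Set (ℤ × ℤ)} (hR : Rg ⊆ Bx x l) {a b : ℤ × ℤ}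
    (h : PConn (op ω) Rg a b) : PConn (op (S.cf ω)) Rg a b := by
  obtain ⟨h1, h2⟩ := h
  have key : PConn (op (S.cf ω)) Rg a b := by
    induction h2 with
    | refl => exact PConn.refl h1
    | @tail s s' _ hss ih =>
      refine ih.tail ⟨hss.1.1, hss.1.2.1, ?_⟩ hss.2
      have m1 := hR ih.right_mem
      have m2 := hR hss.2
      have hst := hss.1
      obtain ⟨k1, k2, k3⟩ := hst
      obtain ⟨a1, a2, a3, a4⟩ := m1
      obtain ⟨b1, b2, b3, b4⟩ := m2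
      have hF : (min s.1 s'.1, min s.2 s'.2) ∈ S.F := hB.fresh _
        ⟨by dsimp only; omega, by dsimp only; omega, by dsimp only; omega, by dsimp only; omega⟩
      show ov S.F S.z ω _ = true
      rw [ov_mem hF]
      exact k3
  exact key

theorem bx_dual (hB : TB S u w (4 * l) H x) (hx1 : u - w ≤ x - 8 * l) (hl : 1 ≤ l)
    (hx2 : x + 8 * l ≤ u + w) {ω : Cfg} {Rg : Set (ℤ × ℤ)} (hR : Rg ⊆ Bx x l) {a b : ℤ × ℤ}
    (h : PConn (op ω)ᶜ Rg a b) : PConn (op (S.cf ω))ᶜ Rg a b := by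
  obtain ⟨h1, h2⟩ := h
  have key : PConn (op (S.cf ω))ᶜ Rg a b := by
    induction h2 with
    | refl => exact PConn.refl h1
    | @tail s s' _ hss ih =>
      refine ih.tail ⟨hss.1.1, hss.1.2.1, ?_⟩ hss.2
      have m1 := hR ih.right_mem
      have m2 := hR hss.2
      have hst := hss.1
      obtain ⟨k1, k2, k3⟩ := hst
      obtain ⟨a1, a2, a3, a4⟩ := m1
      obtain ⟨b1, b2, b3, b4⟩ := m2
      have hF : (min s.1 s'.1, min s.2 s'.2) ∈ S.F := hB.fresh _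
        ⟨by dsimp only; omega, by dsimp only; omega, by dsimp only; omega, by dsimp only; omega⟩
      show ¬ (ov S.F S.z ω _ = true)
      rw [ov_mem hF]
      exact k3
  exact key

theorem Bd_sub_Bx (hl : 1 ≤ l) : Bd x l ⊆ Bx x l :=
  fun _ h => ⟨h.1, h.2.1, by have := h.2.2.1; omega, h.2.2.2⟩

/-- **the strand passes the gate before it comes below `l`** -/
theorem passes (hC : CoCut) (hB : TB S u w (4 * l) H x) (hl : 1 ≤ l) (hH : 8 * l ≤ H)
    (hx1 : u - w ≤ x - 8 * l) (hx2 : x + 8 * l ≤ u + w) {ω : Cfg} {e : Ed} (hG : Gate x l ω e) :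
    ∃ i, S.m ≤ i ∧ i ≤ hit S.D S.e0 (Lo u w l) (S.cf ω) ∧ i < ex S.D S.e0 (S.cf ω) ∧
      st S.e0 (S.cf ω) i = e := by
  obtain ⟨g1, g2, ⟨a, p, c, a1, a2, -, c1, c2, hea, -, hac⟩,
    ⟨a', p', c', a1', a2', -, c1', c2', hea', -, hac'⟩⟩ := hG
  have hx0 : (x, (-1 : ℤ)) ∉ S.D := hB.flat.not x (by omega) (by omega)
  obtain ⟨U, hU⟩ := exists_pt0 (S := S) hB.toOk (show (1 : ℤ) ≤ 4 * l by omega) hB.tip_hdv hx0
  have htipLo : ((x, 4 * l - 1) : ℤ × ℤ) ∈ Lo u w (4 * l) :=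
    ⟨by dsimp only; omega, by dsimp only; omega, by dsimp only; omega, by dsimp only; omega⟩
  have hp : ∀ i ≤ S.m, U (ls (st S.e0 S.z i)) = U (rs (st S.e0 S.z i)) + 1 := by
    intro i hi
    refine hU.past hB.toOk hB.tip hx0 (fun y h1 h2 => hB.fresh _ ?_) ?_ hi
    · exact ⟨by dsimp only; omega, by dsimp only; omega, h1, by dsimp only; omega⟩
    · rw [hB.tip_hdv]
      exact hB.flat.mem _ htipLo
  have hUtip : U (ls S.tip) = U (rs S.tip) + 1 := hp S.m le_rfl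
  -- contacts
  have ea : Even (a.1 + a.2) := by
    have h1 := hea.parity
    have h2 := FK.even_ls e
    rw [Int.even_iff] at h2 ⊢
    omega
  have oa' : Odd (a'.1 + a'.2) := by
    have h1 := hea'.parity
    have h2 := FK.odd_rs e
    rw [Int.odd_iff] at h2 ⊢
    omega
  have haB := hea.right_mem
  have haB' := hea'.right_mem
  have hcC := hac.right_mem
  have hcC' := hac'.right_mem
  obtain ⟨i, hi, hct⟩ := contact_open hU hB.toOk (by omega) hB.tip_hdv hp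
    (cs_sq hB hl hH hx1 hx2) ea hac
    (east hB hl hx1 hx2 hU (by omega) haB.2.1 (by have := haB.2.2.1; omega) a2)
    (by
      rw [west hB hl hx1 hx2 hU hcC.1 c1 (by have := hcC.2.2.1; omega) c2, hUtip]
      omega)
  obtain ⟨i', hi', hct'⟩ := contact_dual hU hB.toOk (by omega) hB.tip_hdv hp
    (cs_sq hB hl hH hx1 hx2) oa' hac'
    (west hB hl hx1 hx2 hU haB'.1 (by omega) (by have := haB'.2.2.1; omega) a2')
    (by
      rw [east hB hl hx1 hx2 hU (by omega) hcC'.2.1 (by have := hcC'.2.2.1; omega) c2', hUtip]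
      omega)
  -- the domain without the low zone
  have hflat : Flat S.D u w l :=
    ⟨fun v hv => hB.flat.mem v ⟨hv.1, hv.2.1, hv.2.2.1, by have := hv.2.2.2; omega⟩, hB.flat.not⟩
  obtain ⟨D', hD', hco⟩ := hC S.D u w l hB.co hflat
  set ξ := S.cf ω with hξ
  set n := hit S.D S.e0 (Lo u w l) ξ with hn
  have h0 : tlv S.e0 ∉ (↑D' : Set (ℤ × ℤ)) := fun h => hB.st ((hD' _).1 (Finset.mem_coe.1 h)).1
  have hnD : hdv (st S.e0 ξ n) ∉ (↑D' : Set (ℤ × ℤ)) := by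
    intro h
    have h1 := (hD' _).1 (Finset.mem_coe.1 h)
    rcases Bs.hit_spec hB.st (Lo u w l) ξ with h2 | h2
    · exact h1.2 h2
    · exact h2 h1.1
  obtain ⟨V, hV⟩ := walk_pot (ex_of_coConn hco) h0 hnD
  have hmn : S.m ≤ n := by
    by_contra hcon
    have h1 := Bs.hit_min (not_le.1 hcon)
    have h2 := Bs.hit_spec hB.st (Lo u w l) ξ
    rw [← hn, hξ, st_m ω n (by omega)] at h2
    rcases h2 with h2 | h2
    · exact h1.1 (Finset.mem_coe.2 (hB.fresh _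
        ⟨h2.1, h2.2.1, h2.2.2.1, by have := h2.2.2.2; omega⟩))
    · exact h2 h1.2
  have hdD : ∀ i ≤ S.m, hdv (st S.e0 S.z i) ∈ D' := by
    intro i hi
    rw [hD']
    rcases lt_or_eq_of_le hi with h1 | h1
    · have h2 := Bs.hit_min h1
      refine ⟨h2.2, fun h3 => h2.1 (Finset.mem_coe.2 (hB.fresh _
        ⟨h3.1, h3.2.1, h3.2.2.1, by have := h3.2.2.2; omega⟩))⟩
    · subst h1
      have h2 : hdv (st S.e0 S.z S.m) = (x, 4 * l - 1) := hB.tip_hdv
      rw [h2]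
      refine ⟨hB.flat.mem _ htipLo, fun h3 => ?_⟩
      have := h3.2.2.2
      dsimp only at this
      omega
  have hcD : ∀ j < n, hdv (st S.e0 ξ j) ∈ D' := fun j hj =>
    (hD' _).2 ⟨(Bs.hit_min hj).2, (Bs.hit_min hj).1⟩
  have hVp : ∀ i ≤ S.m, V (ls (st S.e0 S.z i)) = V (rs (st S.e0 S.z i)) + 1 := by
    intro i hi
    rw [hV _ (Or.inl (Finset.mem_coe.2 (hdD i hi)))]
    congr 1
    rw [← st_m ω i hi]
    exact cnt_eq_one (D := D') (fun h => h0 (Finset.mem_coe.2 h)) hcD (by omega)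
  have hVc := Pt0.chain hVp
  -- squares of the band and of `Cs`
  have hCsD : ∀ s ∈ Cs x l, ∀ s' ∈ Cs x l, ∀ v, PStep {v} s s' → v ∈ (↑D' : Set (ℤ × ℤ)) := by
    intro s hs s' hs' v hv
    rw [Finset.mem_coe, hD']
    refine ⟨(cs_sq hB hl hH hx1 hx2 s hs s' hs' v hv).1, fun h => ?_⟩
    have h1 := cs_low hs hs' hv
    have h2 := h.2.2.2
    omega
  have hBdD : ∀ s ∈ Bd x l, ∀ s' ∈ Bd x l, ∀ v, PStep {v} s s' → v ∈ (↑D' : Set (ℤ × ℤ)) := by
    rintro ⟨s1, s2⟩ ⟨k1, k2, k3, k4⟩ ⟨t1, t2⟩ ⟨m1, m2, m3, m4⟩ v ⟨h1, h2, h3⟩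
    rw [Set.mem_singleton_iff] at h3
    subst h3
    dsimp only at *
    rw [Finset.mem_coe, hD']
    refine ⟨hB.flat.mem _ ⟨?_, ?_, ?_, ?_⟩, fun h => ?_⟩
    · dsimp only; omega
    · dsimp only; omega
    · dsimp only; omega
    · dsimp only; omega
    · have := h.2.2.2
      dsimp only at this
      omega
  -- values
  have v1 : V (ls e) = V (ls S.tip) := by
    rw [pot_open_path hV h0 hnD hBdD (FK.even_ls e) (bx_open hB hx1 hl hx2 (Bd_sub_Bx hl) hea),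
      pot_open_path hV h0 hnD hCsD ea hct]
    exact (hVc i hi).1
  have v2 : V (rs e) = V (rs S.tip) := by
    rw [pot_dual_path hV h0 hnD hBdD (FK.odd_rs e) (bx_dual hB hx1 hl hx2 (Bd_sub_Bx hl) hea'),
      pot_dual_path hV h0 hnD hCsD oa' hct']
    exact (hVc i' hi').2
  have v3 : V (ls S.tip) = V (rs S.tip) + 1 := hVp S.m le_rfl
  have heLo : hdv e ∈ Lo u w (4 * l) :=
    ⟨by have := g1.1; omega, by have := g1.2.1; omega, by have := g1.2.2.1; omega, g1.2.2.2⟩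
  have heD : hdv e ∈ D' := by
    rw [hD']
    refine ⟨hB.flat.mem _ heLo, fun h => ?_⟩
    have h1 := h.2.2.2
    have h2 := g1.2.2.1
    omega
  have h4 := hV e (Or.inl (Finset.mem_coe.2 heD))
  rw [v1, v2, v3] at h4
  obtain ⟨k, hk, hke⟩ := cnt_pos (e0 := S.e0) (ξ := ξ) (n := n) (e := e) (by omega)
  refine ⟨k, ?_, hk, ?_, hke⟩
  · by_contra hcon
    have h5 := Bs.hit_min (not_le.1 hcon)
    rw [hξ, st_m ω k (by omega)] at hke
    rw [hke] at h5
    exact h5.1 (Finset.mem_coe.2 (hB.fresh _ heLo))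
  · refine lt_of_le_of_ne (hk.trans (Bs.hit_le_ex hB.st)) fun h5 => ?_
    have h6 := Bs.ex_spec hB.st ξ
    rw [← h5, hke] at h6
    exact h6 (hB.flat.mem _ heLo)

end

open Classical in
theorem coCut : CoCut := by
  intro D u w h hD hF
  exact ⟨D.filter fun v => v ∉ Lo u w h, fun v => Finset.mem_filter, coConn_cut hD hF⟩

/-- **GT** -/
theorem gt : GT := by
  intro S u w l H x ω e hl hH hB hx1 hx2 hG
  obtain ⟨i, h1, h2, h4, h5⟩ := passes coCut hB hl hH hx1 hx2 hG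
  refine ⟨i, h1, h2, h4, h5, ?_⟩
  obtain ⟨g1, g2, ⟨a, p, c, a1, a2, p2, c1, c2, hea, hap, hac⟩,
    ⟨a', p', c', a1', a2', p2', c1', c2', hea', hap', hac'⟩⟩ := hG
  subst h5
  refine gt3 hl hB hx1 hx2 h4 ⟨g1.1, g1.2.1, by have := g1.2.2.1; omega, g1.2.2.2⟩ ⟨p, p2, ?_⟩
    ⟨p', p2', ?_⟩
  · exact (hea.mono (le_refl _) (Bd_sub_Bx hl)).trans hap
  · exact (hea'.mono (le_refl _) (Bd_sub_Bx hl)).trans hap'

end Vale.Agent.P167.H318
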