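import Vale.Agent.P167.H318.Mir

/-!
# P167, block NSYM: the mean value of the observable on the mirror-invariant event `AA`
-/

namespace Vale.Agent.P167.H318

open Vale.Agent.P167 Vale.Agent.P167.H192 Vale.Agent.P145.FB Vale.Agent.P167.H558
open MeasureTheory Relation

/-! ### hitting times -/

theorem lt_hit {D : Finset (ℤ × ℤ)} {e0 : Ed} {A : Set (ℤ × ℤ)} {ξ : Cfg} {i : ℕ}
    (h : i < hit D e0 A ξ) : hdv (st e0 ξ i) ∉ A ∧ hdv (st e0 ξ i) ∈ D := by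
  have := Nat.notMem_of_lt_sInf h
  simp only [Set.mem_ofPred_eq, not_or, not_not] at this
  exact this

theorem hit_spec {D : Finset (ℤ × ℤ)} {e0 : Ed} {A : Set (ℤ × ℤ)} {ξ : Cfg}
    (h : ∃ n, hdv (st e0 ξ n) ∈ A ∨ hdv (st e0 ξ n) ∉ D) :
    hdv (st e0 ξ (hit D e0 A ξ)) ∈ A ∨ hdv (st e0 ξ (hit D e0 A ξ)) ∉ D :=
  Nat.sInf_mem (s := {n | hdv (st e0 ξ n) ∈ A ∨ hdv (st e0 ξ n) ∉ D}) h

theorem hit_eq {D : Finset (ℤ × ℤ)} {e0 : Ed} {A : Set (ℤ × ℤ)} {ξ : Cfg} {n : ℕ}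
    (h1 : hdv (st e0 ξ n) ∈ A ∨ hdv (st e0 ξ n) ∉ D)
    (h2 : ∀ i < n, hdv (st e0 ξ i) ∉ A ∧ hdv (st e0 ξ i) ∈ D) : hit D e0 A ξ = n := by
  refine le_antisymm (Nat.sInf_le h1) ?_
  by_contra hlt
  push Not at hlt
  have := h2 _ hlt
  rcases hit_spec ⟨n, h1⟩ with h | h
  · exact this.1 h
  · exact h this.2

theorem ex_spec {D : Finset (ℤ × ℤ)} {e0 : Ed} {ξ : Cfg} (h : 0 < ex D e0 ξ) :
    hdv (st e0 ξ (ex D e0 ξ)) ∉ D := by
  have hne : ∃ n, hdv (st e0 ξ n) ∈ (∅ : Set (ℤ × ℤ)) ∨ hdv (st e0 ξ n) ∉ D := by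
    by_contra hcon
    have : {n | hdv (st e0 ξ n) ∈ (∅ : Set (ℤ × ℤ)) ∨ hdv (st e0 ξ n) ∉ D} = ∅ := by
      ext n
      simp only [Set.mem_ofPred_eq, Set.mem_empty_iff_false, iff_false]
      exact fun h' => hcon ⟨n, h'⟩
    unfold ex hit at h
    rw [this, Nat.sInf_empty] at h
    exact absurd h (lt_irrefl _)
  rcases hit_spec hne with h' | h'
  · exact absurd h' (Set.notMem_empty _)
  · exact h'

theorem hit_le_ex {D : Finset (ℤ × ℤ)} {e0 : Ed} {A : Set (ℤ × ℤ)} {ξ : Cfg}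
    (h : 0 < ex D e0 ξ) : hit D e0 A ξ ≤ ex D e0 ξ :=
  Nat.sInf_le (Or.inr (ex_spec h))

theorem lt_ex {D : Finset (ℤ × ℤ)} {e0 : Ed} {ξ : Cfg} {i : ℕ}
    (h : i < ex D e0 ξ) : hdv (st e0 ξ i) ∈ D := (lt_hit h).2

theorem st_succ (e0 : Ed) (ξ : Cfg) (i : ℕ) : st e0 ξ (i + 1) = nx ξ (st e0 ξ i) :=
  Function.iterate_succ_apply' _ _ _

/-! ### one step of the rule -/

/-- the square ahead is a neighbour of the square ahead of the previous edge -/
theorem hdv_nx (ω : Cfg) (e : Ed) :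
    ((hdv (nx ω e)).1 = (hdv e).1 ∧ ((hdv (nx ω e)).2 = (hdv e).2 + 1 ∨
      (hdv (nx ω e)).2 = (hdv e).2 - 1)) ∨
    ((hdv (nx ω e)).2 = (hdv e).2 ∧ ((hdv (nx ω e)).1 = (hdv e).1 + 1 ∨
      (hdv (nx ω e)).1 = (hdv e).1 - 1)) := by
  rcases e with ⟨a, b⟩ | ⟨a, b⟩
  · by_cases h : Even (a + b)
    · have h1 : ¬ Even (a + 1 + (b - 1)) ↔ False := by
        rw [show a + 1 + (b - 1) = a + b by ring]; simp [h]
      have h2 : ¬ Even (a + 1 + b) := by
        rw [Int.even_iff] at h ⊢; omega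
      cases hω : ω (a + 1, b) with
      | true =>
        have e1 : nx ω (Sum.inl (a, b)) = Sum.inr (a + 1, b - 1) := by
          simp [nx, h, hω]
        have h3 : Even (a + 1 + (b - 1)) := by
          rw [show a + 1 + (b - 1) = a + b by ring]; exact h
        rw [e1]
        simp [hdv, h, h3]
      | false =>
        have e1 : nx ω (Sum.inl (a, b)) = Sum.inr (a + 1, b) := by
          simp [nx, h, hω]
        rw [e1]
        simp [hdv, h, h2]
    · cases hω : ω (a, b) with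
      | true =>
        have e1 : nx ω (Sum.inl (a, b)) = Sum.inr (a, b) := by
          simp [nx, h, hω]
        rw [e1]
        simp [hdv, h]
      | false =>
        have e1 : nx ω (Sum.inl (a, b)) = Sum.inr (a, b - 1) := by
          simp [nx, h, hω]
        have h3 : Even (a + (b - 1)) := by
          rw [Int.even_iff] at h ⊢; omega
        rw [e1]
        simp [hdv, h, h3]
  · by_cases h : Even (a + b)
    · cases hω : ω (a, b) with
      | true =>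
        have e1 : nx ω (Sum.inr (a, b)) = Sum.inl (a - 1, b) := by
          simp [nx, h, hω]
        have h3 : ¬ Even (a - 1 + b) := by
          rw [Int.even_iff] at h ⊢; omega
        rw [e1]
        simp [hdv, h, h3]
      | false =>
        have e1 : nx ω (Sum.inr (a, b)) = Sum.inl (a, b) := by
          simp [nx, h, hω]
        rw [e1]
        simp [hdv, h]
    · cases hω : ω (a, b + 1) with
      | true =>
        have e1 : nx ω (Sum.inr (a, b)) = Sum.inl (a, b + 1) := by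
          simp [nx, h, hω]
        have h3 : Even (a + (b + 1)) := by
          rw [Int.even_iff] at h ⊢; omega
        rw [e1]
        simp [hdv, h, h3]
      | false =>
        have e1 : nx ω (Sum.inr (a, b)) = Sum.inl (a - 1, b + 1) := by
          simp [nx, h, hω]
        have h3 : ¬ Even (a - 1 + (b + 1)) := by
          rw [Int.even_iff] at h ⊢; omega
        rw [e1]
        simp [hdv, h, h3]

/-- the square ahead of a horizontal medial edge -/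
theorem hdv_inl (v : ℤ × ℤ) :
    (hdv (Sum.inl v)).2 = v.2 ∧ ((hdv (Sum.inl v)).1 = v.1 ∨ (hdv (Sum.inl v)).1 = v.1 + 1) := by
  by_cases h : Even (v.1 + v.2)
  · simp [hdv, h]
  · simp [hdv, h]

/-! ### the strand of the mirror image -/

/-- the data of a mirror pair: `n`, `n'` times, `N` the exit time -/
structure Pr2 (D : Finset (ℤ × ℤ)) (e0 : Ed) (x l : ℤ) (ξ ξ' : Cfg) (n n' N : ℕ) : Prop where
  /-- the box is in `D` -/
  sub : ∀ q ∈ Q2 x l, q ∈ D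
  /-- the squares around the box -/
  up : ∀ q : ℤ × ℤ, q ∉ D → x - 8 * l - 1 ≤ q.1 → q.1 ≤ x + 8 * l + 1 → -1 ≤ q.2 →
    q.2 ≤ 4 * l → mQ x q ∉ D
  /-- the configurations are mirror images in the box -/
  mir : ∀ q ∈ Q2 x l, ξ' (mQ x q) = !(ξ q)
  le : n ≤ N
  lt : ∀ i < N, hdv (st e0 ξ i) ∈ D
  ex : hdv (st e0 ξ N) ∉ D
  lt' : ∀ i < n', hdv (st e0 ξ' i) ∈ D
  eq : st e0 ξ' n' = mE x (st e0 ξ n)
  stay : ∀ i, n ≤ i → i < N → hdv (st e0 ξ i) ∈ Q2 x l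
  hd : hdv (st e0 ξ n) ∈ Q2 x l

theorem mQ_Q2 {x l : ℤ} {q : ℤ × ℤ} (h : q ∈ Q2 x l) : mQ x q ∈ Q2 x l := by
  obtain ⟨h1, h2, h3, h4⟩ := h
  exact ⟨by simp only [mQ]; omega, by simp only [mQ]; omega, h3, h4⟩

theorem mQ_Qx {x l : ℤ} {q : ℤ × ℤ} (h : q ∈ Qx x l) : mQ x q ∈ Qx x l := by
  obtain ⟨h1, h2, h3, h4⟩ := h
  exact ⟨by simp only [mQ]; omega, by simp only [mQ]; omega, h3, h4⟩

theorem Pr2.st_eq {D : Finset (ℤ × ℤ)} {e0 : Ed} {x l : ℤ} {ξ ξ' : Cfg} {n n' N : ℕ}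
    (h : Pr2 D e0 x l ξ ξ' n n' N) : ∀ j, n + j ≤ N → st e0 ξ' (n' + j) = mE x (st e0 ξ (n + j)) := by
  intro j
  induction j with
  | zero => exact fun _ => h.eq
  | succ j ih =>
    intro hj
    have h1 := ih (by omega)
    have h2 := h.stay (n + j) (by omega) (by omega)
    rw [← add_assoc, ← add_assoc, st_succ, st_succ, h1, ← nx_mE]
    refine nx_congr ?_
    rw [hdv_mE, h.mir _ h2]
    show (!(ξ (hdv (st e0 ξ (n + j))))) = !(ξ (mQ x (mQ x (hdv (st e0 ξ (n + j))))))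
    rw [mQ_mQ]

theorem Pr2.lt_N {D : Finset (ℤ × ℤ)} {e0 : Ed} {x l : ℤ} {ξ ξ' : Cfg} {n n' N : ℕ}
    (h : Pr2 D e0 x l ξ ξ' n n' N) : n < N := by
  rcases lt_or_eq_of_le h.le with h1 | h1
  · exact h1
  · exact absurd (h.sub _ h.hd) (h1 ▸ h.ex)

/-- the square ahead at the exit, and its mirror image, are off `D` -/
theorem Pr2.exit {D : Finset (ℤ × ℤ)} {e0 : Ed} {x l : ℤ} {ξ ξ' : Cfg} {n n' N : ℕ}
    (h : Pr2 D e0 x l ξ ξ' n n' N) : hdv (st e0 ξ' (n' + (N - n))) ∉ D := by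
  have hN := h.lt_N
  rw [h.st_eq (N - n) (by omega), show n + (N - n) = N by omega, hdv_mE]
  have h1 := h.stay (N - 1) (by omega) (by omega)
  have h2 := hdv_nx ξ (st e0 ξ (N - 1))
  rw [← st_succ, show N - 1 + 1 = N by omega] at h2
  obtain ⟨a1, a2, a3, a4⟩ := h1
  refine h.up _ h.ex ?_ ?_ ?_ ?_ <;> rcases h2 with h2 | h2 <;> omega

theorem Pr2.ex' {D : Finset (ℤ × ℤ)} {e0 : Ed} {x l : ℤ} {ξ ξ' : Cfg} {n n' N : ℕ}
    (h : Pr2 D e0 x l ξ ξ' n n' N) : H318.ex D e0 ξ' = n' + (N - n) := by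
  refine hit_eq (Or.inr h.exit) fun i hi => ⟨Set.notMem_empty _, ?_⟩
  by_cases h1 : i < n'
  · exact h.lt' i h1
  · obtain ⟨j, rfl⟩ : ∃ j, i = n' + j := ⟨i - n', by omega⟩
    rw [h.st_eq j (by omega), hdv_mE]
    exact h.sub _ (mQ_Q2 (h.stay (n + j) (by omega) (by omega)))

theorem Pr2.ex_eq {D : Finset (ℤ × ℤ)} {e0 : Ed} {x l : ℤ} {ξ ξ' : Cfg} {n n' N : ℕ}
    (h : Pr2 D e0 x l ξ ξ' n n' N) : H318.ex D e0 ξ = N :=
  hit_eq (Or.inr h.ex) fun i hi => ⟨Set.notMem_empty _, h.lt i hi⟩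

/-! ### the event `AA` is invariant -/

section AA

variable {S : St} {u w l H x l' : ℤ}

/-- standing hypotheses -/
structure Hy (S : St) (u w l H x l' : ℤ) : Prop where
  l1 : 1 ≤ l'
  ll : l' ≤ l
  lH : 8 * l ≤ H
  tb : TB S u w (4 * l) H x
  xl : u - w ≤ x - 20 * l
  xr : x + 20 * l ≤ u + w

theorem Hy.lo (h : Hy S u w l H x l') {q : ℤ × ℤ} (hq : q ∈ Q2 x l) : q ∈ Lo u w (4 * l) := by
  obtain ⟨h1, h2, h3, h4⟩ := hq
  have a1 := h.xl
  have a2 := h.xr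
  have a3 := h.l1
  have a4 := h.ll
  exact ⟨by omega, by omega, h3, h4⟩

theorem Hy.fr (h : Hy S u w l H x l') {q : ℤ × ℤ} (hq : q ∈ Q2 x l) : q ∈ S.F :=
  h.tb.fresh _ (h.lo hq)

theorem Hy.cf (h : Hy S u w l H x l') {q : ℤ × ℤ} (hq : q ∈ Q2 x l) (ω : Cfg) :
    S.cf ω q = ω q := ov_mem (h.fr hq)

theorem Hy.up (h : Hy S u w l H x l') (q : ℤ × ℤ) (h1 : q ∉ S.D) (h2 : x - 8 * l - 1 ≤ q.1)
    (h3 : q.1 ≤ x + 8 * l + 1) (h4 : -1 ≤ q.2) (h5 : q.2 ≤ 4 * l) : mQ x q ∉ S.D := by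
  have a1 := h.xl
  have a2 := h.xr
  have a3 := h.l1
  have a4 := h.ll
  have a5 := h.lH
  by_cases h6 : 0 ≤ q.2
  · exact absurd (h.tb.flat'.mem q ⟨by omega, by omega, h6, by omega⟩) h1
  · have h7 : q.2 = -1 := by omega
    have := h.tb.flat.not (2 * x - q.1) (by omega) (by omega)
    unfold mQ
    rw [h7]
    exact this

theorem Qx_Q2 (h : 1 ≤ l) {q : ℤ × ℤ} (hq : q ∈ Qx x l) : q ∈ Q2 x l := by
  obtain ⟨h1, h2, h3, h4⟩ := hq
  exact ⟨by omega, by omega, h3, h4⟩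

/-- the mirror pair -/
theorem Hy.pr (h : Hy S u w l H x l') {ω : Cfg} (hA : ω ∈ AA S u w l x l') :
    Pr2 S.D S.e0 x l (S.cf ω) (S.cf (mC x ω)) (hit S.D S.e0 (Lo u w l) (S.cf ω))
      (hit S.D S.e0 (Lo u w l) (S.cf (mC x ω))) (ex S.D S.e0 (S.cf ω)) := by
  have a3 := h.l1
  have a4 := h.ll
  have hpos : 0 < ex S.D S.e0 (S.cf ω) := lt_of_le_of_lt (Nat.zero_le _) hA.1.2.1
  exact
    { sub := fun q hq => h.tb.flat.mem _ (h.lo hq)
      up := h.up
      mir := fun q hq => by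
        rw [h.cf (mQ_Q2 hq), h.cf hq]
        show (!(ω (mQ x (mQ x q)))) = _
        rw [mQ_mQ]
      le := hit_le_ex hpos
      lt := fun i hi => lt_ex hi
      ex := ex_spec hpos
      lt' := fun i hi => (lt_hit hi).2
      eq := hA.1.1.2
      stay := hA.2
      hd := Qx_Q2 (by omega) hA.1.1.1 }

theorem Hy.hit2 (h : Hy S u w l H x l') {ω : Cfg} (hA : ω ∈ AA S u w l x l') :
    hit S.D S.e0 (Lo u w l) (S.cf ω) ≤ hit S.D S.e0 (Lo u w l') (S.cf ω) := by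
  by_contra hlt
  push Not at hlt
  have h1 := lt_hit hlt
  have h2 : hdv (st S.e0 (S.cf ω) (hit S.D S.e0 (Lo u w l') (S.cf ω))) ∈ Lo u w l' := by
    rcases hit_spec (D := S.D) (e0 := S.e0) (A := Lo u w l') (ξ := S.cf ω)
      ⟨_, Or.inr (ex_spec (lt_of_le_of_lt (Nat.zero_le _) hA.1.2.1))⟩ with h2 | h2
    · exact h2
    · exact absurd h1.2 h2
  apply h1.1
  obtain ⟨b1, b2, b3, b4⟩ := h2
  exact ⟨b1, b2, b3, lt_of_lt_of_le b4 h.ll⟩

/-- second hitting time of the mirror image -/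
theorem Hy.hit' (h : Hy S u w l H x l') {ω : Cfg} (hA : ω ∈ AA S u w l x l') :
    hit S.D S.e0 (Lo u w l') (S.cf (mC x ω)) = hit S.D S.e0 (Lo u w l) (S.cf (mC x ω)) +
      (hit S.D S.e0 (Lo u w l') (S.cf ω) - hit S.D S.e0 (Lo u w l) (S.cf ω)) := by
  have hp := h.pr hA
  have h12 := h.hit2 hA
  have hlt : hit S.D S.e0 (Lo u w l') (S.cf ω) < ex S.D S.e0 (S.cf ω) := hA.1.2.1
  have a1 := h.xl
  have a2 := h.xr
  have a3 := h.l1
  have a4 := h.ll
  refine hit_eq (Or.inl ?_) fun i hi => ?_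
  · rw [hp.st_eq _ (by omega), Nat.add_sub_cancel' h12, hdv_mE]
    have h2 : hdv (st S.e0 (S.cf ω) (hit S.D S.e0 (Lo u w l') (S.cf ω))) ∈ Lo u w l' := by
      rcases hit_spec (D := S.D) (e0 := S.e0) (A := Lo u w l') (ξ := S.cf ω)
        ⟨_, Or.inr (ex_spec (lt_of_le_of_lt (Nat.zero_le _) hlt))⟩ with h2 | h2
      · exact h2
      · exact absurd (lt_ex hlt) h2
    obtain ⟨c1, c2, c3, c4⟩ := hA.1.2.2 _ h12 le_rfl
    obtain ⟨b1, b2, b3, b4⟩ := h2
    exact ⟨by simp only [mQ]; omega, by simp only [mQ]; omega, b3, b4⟩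
  · by_cases h1 : i < hit S.D S.e0 (Lo u w l) (S.cf (mC x ω))
    · have h2 := lt_hit h1
      refine ⟨fun h3 => h2.1 ?_, h2.2⟩
      obtain ⟨b1, b2, b3, b4⟩ := h3
      exact ⟨b1, b2, b3, lt_of_lt_of_le b4 a4⟩
    · obtain ⟨j, rfl⟩ : ∃ j, i = hit S.D S.e0 (Lo u w l) (S.cf (mC x ω)) + j :=
        ⟨i - hit S.D S.e0 (Lo u w l) (S.cf (mC x ω)), by omega⟩
      rw [hp.st_eq j (by omega), hdv_mE]
      have h3 := hp.stay (hit S.D S.e0 (Lo u w l) (S.cf ω) + j) (by omega) (by omega)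
      refine ⟨fun h4 => ?_, hp.sub _ (mQ_Q2 h3)⟩
      have h5 := (lt_hit (D := S.D) (e0 := S.e0) (A := Lo u w l') (ξ := S.cf ω)
        (i := hit S.D S.e0 (Lo u w l) (S.cf ω) + j) (by omega)).1
      apply h5
      obtain ⟨c1, c2, c3, c4⟩ := h3
      obtain ⟨b1, b2, b3, b4⟩ := h4
      simp only [mQ] at b1 b2 b3 b4
      exact ⟨by omega, by omega, b3, b4⟩

theorem Hy.inv (h : Hy S u w l H x l') {ω : Cfg} (hA : ω ∈ AA S u w l x l') :
    mC x ω ∈ AA S u w l x l' := by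
  have hp := h.pr hA
  have h12 := h.hit2 hA
  have hlt : hit S.D S.e0 (Lo u w l') (S.cf ω) < ex S.D S.e0 (S.cf ω) := hA.1.2.1
  have hX : S.X1 (Lo u w l) (mC x ω) = mE x (S.X1 (Lo u w l) ω) := hA.1.1.2
  refine ⟨⟨⟨?_, ?_⟩, ?_, ?_⟩, ?_⟩
  · rw [hX, hdv_mE]
    exact mQ_Qx hA.1.1.1
  · rw [mC_mC, hX, mE_mE]
  · rw [h.hit' hA, hp.ex']
    omega
  · intro i h1 h2
    rw [h.hit' hA] at h2
    obtain ⟨j, rfl⟩ : ∃ j, i = hit S.D S.e0 (Lo u w l) (S.cf (mC x ω)) + j :=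
      ⟨i - hit S.D S.e0 (Lo u w l) (S.cf (mC x ω)), by omega⟩
    rw [hp.st_eq j (by omega), hdv_mE]
    exact mQ_Qx (hA.1.2.2 _ (by omega) (by omega))
  · intro i h1 h2
    rw [hp.ex'] at h2
    obtain ⟨j, rfl⟩ : ∃ j, i = hit S.D S.e0 (Lo u w l) (S.cf (mC x ω)) + j :=
      ⟨i - hit S.D S.e0 (Lo u w l) (S.cf (mC x ω)), by omega⟩
    rw [hp.st_eq j (by omega), hdv_mE]
    exact mQ_Q2 (hp.stay _ (by omega) (by omega))

end AA

/-! ### the observable -/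

section obs

variable {S : St} {u w l H x l' : ℤ} {k : ℕ} {ψ : ℤ → ℝ}

theorem wt_zero (hψ : ∀ y, ψ y ≠ 0 → u - w + 1 ≤ y ∧ y ≤ u + w) (hk : (k : ℤ) ≤ l) {e : Ed}
    (he : hdv e ∉ Lo u w l) : wt ψ k e = 0 := by
  rcases e with v | v
  · unfold wt
    dsimp only
    split_ifs with h1
    · by_cases h2 : ψ (v.1 + 1) = 0
      · rw [h2, zero_mul]
      · exfalso
        apply he
        have h3 := hψ _ h2
        have h4 := hdv_inl v
        refine ⟨?_, ?_, ?_, ?_⟩ <;> rcases h4 with ⟨h4, h5 | h5⟩ <;> omega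
    · rfl
  · rfl

/-- the antisymmetric part of `ψ`, cut off -/
noncomputable def psh (ψ : ℤ → ℝ) (x l : ℤ) (y : ℤ) : ℝ :=
  if x - 8 * l ≤ y ∧ y ≤ x + 8 * l + 1 then ψ y - ψ (2 * x + 1 - y) else 0

theorem wt_add (e : Ed) (he : hdv e ∈ Q2 x l) :
    wt ψ k e + wt ψ k (mE x e) = wt (psh ψ x l) k e := by
  rcases e with v | v
  · obtain ⟨h1, h2, h3, h4⟩ := he
    have h5 := hdv_inl v
    have h6 : x - 8 * l ≤ v.1 + 1 ∧ v.1 + 1 ≤ x + 8 * l + 1 := by
      rcases h5 with ⟨h5, h6 | h6⟩ <;> omega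
    have h7 := sg_mE_inl x v
    unfold wt mE psh at *
    dsimp only at *
    split_ifs with h8
    · rw [h7, show 2 * x - v.1 - 1 + 1 = 2 * x + 1 - (v.1 + 1) by ring]
      push_cast
      ring
    · ring
  · simp [wt, mE]

theorem J_split {D : Finset (ℤ × ℤ)} {e0 : Ed} {ξ : Cfg} {n N : ℕ} (hn : n ≤ N)
    (hN : ex D e0 ξ = N) (h0 : ∀ i < n, wt ψ k (st e0 ξ i) = 0) :
    J D e0 ψ k ξ = ∑ j ∈ Finset.range (N - n), wt ψ k (st e0 ξ (n + j)) := by
  obtain ⟨m, rfl⟩ : ∃ m, N = n + m := ⟨N - n, by omega⟩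
  unfold J
  rw [hN, Finset.sum_range_add, Nat.add_sub_cancel_left,
    Finset.sum_eq_zero fun i hi => h0 i (Finset.mem_range.1 hi), zero_add]

theorem Hy.J_add (h : Hy S u w l H x l') (hk : (k : ℤ) ≤ l)
    (hψ : ∀ y, ψ y ≠ 0 → u - w + 1 ≤ y ∧ y ≤ u + w) {ω : Cfg} (hA : ω ∈ AA S u w l x l') :
    J S.D S.e0 ψ k (S.cf ω) + J S.D S.e0 ψ k (S.cf (mC x ω)) =
      J S.D S.e0 (psh ψ x l) k (S.cf ω) := by
  have hp := h.pr hA
  have a1 := h.xl
  have a2 := h.xr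
  have a3 := h.l1
  have a4 := h.ll
  have hψ' : ∀ y, psh ψ x l y ≠ 0 → u - w + 1 ≤ y ∧ y ≤ u + w := by
    intro y hy
    unfold psh at hy
    split_ifs at hy with h1
    · omega
    · exact absurd rfl hy
  rw [J_split hp.le rfl (fun i hi => wt_zero hψ hk (lt_hit hi).1),
    J_split (Nat.le_add_right _ _) hp.ex' (fun i hi => wt_zero hψ hk (lt_hit hi).1),
    J_split hp.le rfl (fun i hi => wt_zero hψ' hk (lt_hit hi).1),
    Nat.add_sub_cancel_left, ← Finset.sum_add_distrib]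
  refine Finset.sum_congr rfl fun j hj => ?_
  have hj' := Finset.mem_range.1 hj
  rw [hp.st_eq j (by omega)]
  exact wt_add _ (hp.stay _ (by omega) (by omega))

end obs

/-! ### functions of finitely many squares -/

theorem past_bdd (K : Finset (ℤ × ℤ)) (Y : Cfg → ℝ) (hY : H558.Past (fun _ => K) Y) :
    ∃ B, ∀ ω, |Y ω| ≤ B := by
  classical
  have hfin : (Set.range Y).Finite := by
    have : Set.range Y ⊆ Set.range (fun ζ : (K → Bool) =>
        Y (fun v => if hv : v ∈ K then ζ ⟨v, hv⟩ else false)) := by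
      rintro _ ⟨ω, rfl⟩
      refine ⟨fun v => ω v, ?_⟩
      refine (hY _ _ fun v hv => ?_)
      rw [dif_pos hv]
    exact (Set.finite_range _).subset this
  obtain ⟨B, hB⟩ := (hfin.image fun t => |t|).bddAbove
  exact ⟨B, fun ω => hB ⟨Y ω, ⟨ω, rfl⟩, rfl⟩⟩

theorem past_cf (S : St) {γ : Type*} (Φ : Cfg → γ) : H558.Past (fun _ => S.F) fun ω => Φ (S.cf ω) := by
  intro ω ω' h
  have : S.cf ω' = S.cf ω := by
    funext v
    by_cases hv : v ∈ S.F
    · show ov S.F S.z ω' v = ov S.F S.z ω v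
      rw [ov_mem hv, ov_mem hv]
      exact h v hv
    · show ov S.F S.z ω' v = ov S.F S.z ω v
      rw [ov_notMem hv, ov_notMem hv]
  show Φ (S.cf ω') = Φ (S.cf ω)
  rw [this]

theorem past_mC {γ : Type*} (c : ℤ) (K : Finset (ℤ × ℤ)) (Y : Cfg → γ)
    (hY : H558.Past (fun _ => K) Y) :
    H558.Past (fun _ => K.image (mQ c)) fun ω => Y (mC c ω) := by
  intro ω ω' h
  refine hY _ _ fun v hv => ?_
  show (!(ω' (mQ c v))) = !(ω (mQ c v))
  rw [h _ (Finset.mem_image_of_mem _ hv)]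

theorem meas_cf (S : St) {γ : Type*} [MeasurableSpace γ] (Φ : Cfg → γ) :
    Measurable fun ω => Φ (S.cf ω) := (past_cf S Φ).measurable

theorem int_cf (S : St) (Φ : Cfg → ℝ) : Integrable (fun ω => Φ (S.cf ω)) μ := by
  obtain ⟨B, hB⟩ := past_bdd S.F _ (past_cf S Φ)
  exact Integrable.of_bound (meas_cf S Φ).aestronglyMeasurable B
    (Filter.Eventually.of_forall fun ω => by rw [Real.norm_eq_abs]; exact hB ω)

theorem meas_AA (S : St) (u w l x l' : ℤ) : MeasurableSet (AA S u w l x l') := by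
  classical
  have h : H558.Past (fun _ => S.F ∪ S.F.image (mQ x)) fun ω => ω ∈ AA S u w l x l' := by
    intro ω ω' h
    have h1 : S.cf ω' = S.cf ω := past_cf S id ω ω' fun v hv => h v (Finset.mem_union_left _ hv)
    have h2 : S.cf (mC x ω') = S.cf (mC x ω) :=
      past_mC x S.F _ (past_cf S id) ω ω' fun v hv => h v (Finset.mem_union_right _ hv)
    have h3 : S.X1 (Lo u w l) ω' = S.X1 (Lo u w l) ω := by
      show st S.e0 (S.cf ω') (hit S.D S.e0 (Lo u w l) (S.cf ω')) = _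
      rw [h1]; rfl
    have h4 : S.X1 (Lo u w l) (mC x ω') = S.X1 (Lo u w l) (mC x ω) := by
      show st S.e0 (S.cf (mC x ω')) (hit S.D S.e0 (Lo u w l) (S.cf (mC x ω'))) = _
      rw [h2]; rfl
    show (ω' ∈ AA S u w l x l') = (ω ∈ AA S u w l x l')
    unfold AA TJ TT
    simp only [Set.mem_ofPred_eq, h1, h3, h4]
  exact h.measurable.setOf

/-! ### the estimate -/

/-- `MR` with the condition on the support of `ψ` -/
def MR' : Prop := ∃ C : ℝ, 0 < C ∧ ∀ (S : St) (u w l H x l' : ℤ) (k : ℕ) (ψ : ℤ → ℝ) (v : ℤ),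
  1 ≤ k → 150 * (k : ℤ) ≤ l' → l' ≤ l → 8 * l ≤ H → TB S u w (4 * l) H x →
  u - w ≤ x - 20 * l → x + 20 * l ≤ u + w → 20 * l ≤ v →
  (∀ x, |ψ x| ≤ 1) → (∀ x x', |ψ x - ψ x'| ≤ |(x : ℝ) - x'| / v) →
  (∀ x, ψ x ≠ 0 → u - w + 1 ≤ x ∧ x ≤ u + w) →
  |∫ ω in AA S u w l x l', J S.D S.e0 ψ k (S.cf ω) ∂μ| ≤ C * k * (l / v)

/-- the mirror image as a measurable equivalence -/
def mCe (c : ℤ) : Cfg ≃ᵐ Cfg where
  toFun := mC c
  invFun := mC c
  left_inv := mC_mC c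
  right_inv := mC_mC c
  measurable_toFun := meas_mC c
  measurable_invFun := meas_mC c

theorem J_smul (D : Finset (ℤ × ℤ)) (e0 : Ed) (ψ : ℤ → ℝ) (k : ℕ) (ξ : Cfg) (a : ℝ) :
    J D e0 (fun y => a * ψ y) k ξ = a * J D e0 ψ k ξ := by
  unfold J
  rw [Finset.mul_sum]
  refine Finset.sum_congr rfl fun i _ => ?_
  rcases st e0 ξ i with v | v
  · unfold wt
    dsimp only
    split_ifs
    · ring
    · ring
  · simp [wt]

theorem mr' (h : SM) : MR' := by
  obtain ⟨C, hC, hSM⟩ := h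
  refine ⟨17 * √C, by positivity, ?_⟩
  intro S u w l H x l' k ψ v hk hkl hll hlH hTB hxl hxr hlv hψ1 hψL hψs
  have hH : Hy S u w l H x l' := ⟨by omega, hll, hlH, hTB, hxl, hxr⟩
  set A := AA S u w l x l' with hAdef
  set g : Cfg → ℝ := fun ω => J S.D S.e0 ψ k (S.cf ω) with hg
  -- invariance
  have hpre : (mCe x) ⁻¹' A = A := by
    ext ω
    constructor
    · intro hω
      have := hH.inv (ω := mC x ω) hω
      rwa [mC_mC] at this
    · exact fun hω => hH.inv hω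
  have e1 : ∫ ω in A, g (mC x ω) ∂μ = ∫ ω in A, g ω ∂μ := by
    have hmp : MeasurePreserving (mCe x) μ μ := mp_mC x
    have := hmp.setIntegral_preimage_emb (mCe x).measurableEmbedding g A
    rw [hpre] at this
    exact this
  have hg1 : Integrable g μ := int_cf S _
  have hg2 : Integrable (fun ω => g (mC x ω)) μ := by
    have hmp : MeasurePreserving (mCe x) μ μ := mp_mC x
    exact (hmp.integrable_comp_emb (mCe x).measurableEmbedding).2 hg1
  have e2 : ∫ ω in A, (g ω + g (mC x ω)) ∂μ = 2 * ∫ ω in A, g ω ∂μ := by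
    rw [integral_add hg1.integrableOn hg2.integrableOn, e1]
    ring
  have e3 : ∫ ω in A, (g ω + g (mC x ω)) ∂μ =
      ∫ ω in A, J S.D S.e0 (psh ψ x l) k (S.cf ω) ∂μ := by
    refine setIntegral_congr_fun (meas_AA S u w l x l') fun ω hω => ?_
    exact hH.J_add (by omega) hψs hω
  have hl1 : (1 : ℝ) ≤ l := by exact_mod_cast (by omega : (1 : ℤ) ≤ l)
  have hv1 : (0 : ℝ) < v := by exact_mod_cast (by omega : (0 : ℤ) < v)
  set a : ℝ := 17 * (l / v) with ha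
  have ha0 : 0 < a := by positivity
  set ψ1 : ℤ → ℝ := fun y => a⁻¹ * psh ψ x l y with hψ1d
  have hps : psh ψ x l = fun y => a * ψ1 y := by
    funext y
    rw [hψ1d]
    field_simp
  -- bound of the cut off function
  have hb : ∀ y, |psh ψ x l y| ≤ a := by
    intro y
    unfold psh
    split_ifs with hy
    · refine (hψL _ _).trans ?_
      rw [ha, ← mul_div_assoc]
      refine div_le_div_of_nonneg_right ?_ hv1.le
      have h1 : ((y : ℤ) : ℝ) - ((2 * x + 1 - y : ℤ) : ℝ) = ((2 * y - 2 * x - 1 : ℤ) : ℝ) := by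
        push_cast; ring
      rw [h1, abs_le]
      constructor
      · have : (-(17 * l) : ℤ) ≤ 2 * y - 2 * x - 1 := by omega
        have h2 := (Int.cast_le (R := ℝ)).2 this
        push_cast at h2 ⊢
        linarith
      · have : 2 * y - 2 * x - 1 ≤ (17 * l : ℤ) := by omega
        have h2 := (Int.cast_le (R := ℝ)).2 this
        push_cast at h2 ⊢
        linarith
    · rw [abs_zero]; exact ha0.le
  have hb1 : ∀ y, |ψ1 y| ≤ 1 := by
    intro y
    rw [hψ1d]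
    dsimp only
    rw [abs_mul, abs_of_pos (inv_pos.2 ha0), inv_mul_le_iff₀ ha0, mul_one]
    exact hb y
  have hs1 : ∀ y, ψ1 y ≠ 0 → u - w + 150 * k ≤ y ∧ y ≤ u + w - 150 * k := by
    intro y hy
    have : psh ψ x l y ≠ 0 := by
      intro h0
      apply hy
      rw [hψ1d]
      simp [h0]
    unfold psh at this
    split_ifs at this with h1
    · omega
    · exact absurd rfl this
  have hTA : TA S u w (4 * l) := hTB.toTA
  have hsm := hSM S u w (4 * l) k ψ1 hk (by omega) hTA hb1 hs1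
  -- first moment of `J ψ1`
  have hk0 : (0 : ℝ) < k := by exact_mod_cast (by omega : 0 < k)
  set b : ℝ := √C * k with hbd
  have hb0 : 0 < b := by positivity
  have hbb : b ^ 2 = C * (k : ℝ) ^ 2 := by
    rw [hbd, mul_pow, Real.sq_sqrt hC.le]
  set G : Cfg → ℝ := fun ω => J S.D S.e0 ψ1 k (S.cf ω) with hG
  have hG1 : Integrable G μ := int_cf S _
  have hG2 : Integrable (fun ω => G ω ^ 2) μ := int_cf S (fun ξ => J S.D S.e0 ψ1 k ξ ^ 2)
  have hsm' : ∫ ω, G ω ^ 2 ∂μ ≤ b ^ 2 := by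
    rw [hbb]
    exact hsm
  have e4 : ∫ ω, |G ω| ∂μ ≤ b := by
    have h1 : ∫ ω, |G ω| ∂μ ≤ ∫ ω, (G ω ^ 2 / (2 * b) + b / 2) ∂μ := by
      refine integral_mono hG1.abs ((hG2.div_const _).add (integrable_const _)) fun ω => ?_
      have h2 : 0 ≤ (|G ω| - b) ^ 2 / (2 * b) := by positivity
      have h3 : (|G ω| - b) ^ 2 / (2 * b) = G ω ^ 2 / (2 * b) + b / 2 - |G ω| := by
        rw [sub_sq, sq_abs]
        field_simp
        ring
      show |G ω| ≤ G ω ^ 2 / (2 * b) + b / 2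
      linarith
    have h4 : ∫ ω, (G ω ^ 2 / (2 * b) + b / 2) ∂μ = (∫ ω, G ω ^ 2 ∂μ) / (2 * b) + b / 2 := by
      rw [integral_add (hG2.div_const _) (integrable_const _), integral_div, integral_const]
      simp
    have h5 : (∫ ω, G ω ^ 2 ∂μ) / (2 * b) ≤ b / 2 := by
      rw [div_le_div_iff₀ (by positivity) (by norm_num)]
      nlinarith
    linarith
  have e5 : |∫ ω in A, J S.D S.e0 (psh ψ x l) k (S.cf ω) ∂μ| ≤ a * b := by
    have h1 : ∀ ω, J S.D S.e0 (psh ψ x l) k (S.cf ω) = a * G ω := by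
      intro ω
      rw [hps, J_smul]
    simp only [h1]
    rw [integral_const_mul, abs_mul, abs_of_pos ha0]
    refine mul_le_mul_of_nonneg_left ?_ ha0.le
    calc |∫ ω in A, G ω ∂μ| ≤ ∫ ω in A, |G ω| ∂μ := abs_integral_le_integral_abs
      _ ≤ ∫ ω, |G ω| ∂μ :=
        setIntegral_le_integral hG1.abs (Filter.Eventually.of_forall fun ω => abs_nonneg _)
      _ ≤ b := e4
  have e6 : 2 * |∫ ω in A, g ω ∂μ| ≤ a * b := by
    rw [← abs_two, ← abs_mul, ← e2, e3]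
    simpa using e5
  calc |∫ ω in A, g ω ∂μ| ≤ a * b := by
        have : 0 ≤ |∫ ω in A, g ω ∂μ| := abs_nonneg _
        linarith
    _ = 17 * √C * k * (l / v) := by rw [ha, hbd]; ring

/-- **MR** -/
theorem mr (h : SM) : MR := by
  obtain ⟨C, hC, h⟩ := mr' h
  refine ⟨C, hC, ?_⟩
  intro S u w l H x l' k ψ v hk hkl hll hlH hTB _ hxl hxr hlv hψ1 hψL hψs
  refine h S u w l H x l' k ψ v hk hkl hll hlH hTB hxl hxr hlv hψ1 hψL fun y hy => ?_
  have := hψs y hy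
  constructor <;> omega

end Vale.Agent.P167.H318
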