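import Vale.Agent.P167.H318.MR

/-!
# P167, block NSYM: from the gate to the event `AA`

`ga : GA`, `pc_of : GP → GT → PC`, `pa_of : PC → GA → PA`, `pa : GP → GT → PA`.
-/

namespace Vale.Agent.P167.H318

open Vale.Agent.P167 Vale.Agent.P167.H192 Vale.Agent.P145.FB Vale.Agent.P167.H558
open MeasureTheory Relation

/-! ### the mirror image of a gate -/

theorem PStep_mS (c : ℤ) {F : Set (ℤ × ℤ)} {a b : ℤ × ℤ} (h : PStep F a b) :
    PStep (mQ c ⁻¹' F) (mS c a) (mS c b) := by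
  obtain ⟨h1, h2, h3⟩ := h
  refine ⟨?_, h2, ?_⟩
  · simp only [mS]
    omega
  · have e : mQ c (min (mS c a).1 (mS c b).1, min (mS c a).2 (mS c b).2) =
        (min a.1 b.1, min a.2 b.2) := by
      simp only [mQ, mS, Prod.mk.injEq, and_true]
      omega
    rw [Set.mem_preimage, e]
    exact h3

theorem PConn_mS (c : ℤ) {F R : Set (ℤ × ℤ)} {a b : ℤ × ℤ} (h : PConn F R a b) :
    PConn (mQ c ⁻¹' F) (mS c ⁻¹' R) (mS c a) (mS c b) := by
  obtain ⟨h1, h2⟩ := h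
  refine ⟨?_, ?_⟩
  · rw [Set.mem_preimage, mS_mS]
    exact h1
  · refine ReflTransGen.lift (mS c) (fun p q (hpq : PStep F p q ∧ q ∈ R) =>
      (⟨PStep_mS c hpq.1, ?_⟩ : PStep (mQ c ⁻¹' F) (mS c p) (mS c q) ∧ mS c q ∈ mS c ⁻¹' R)) _ _ h2
    rw [Set.mem_preimage, mS_mS]
    exact hpq.2

theorem op_mC (c : ℤ) (ω : Cfg) : mQ c ⁻¹' (op ω)ᶜ = op (mC c ω) := by
  ext v
  simp [op, mC]

theorem op_mC' (c : ℤ) (ω : Cfg) : mQ c ⁻¹' (op ω) = (op (mC c ω))ᶜ := by
  ext v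
  simp [op, mC]

theorem Bd_mS (x l : ℤ) : mS x ⁻¹' Bd x l = Bd x l := by
  ext v
  simp only [Bd, mS, Set.mem_preimage, Set.mem_ofPred_eq]
  omega

theorem Bx_mS (x l : ℤ) : mS x ⁻¹' Bx x l = Bx x l := by
  ext v
  simp only [Bx, mS, Set.mem_preimage, Set.mem_ofPred_eq]
  omega

theorem Cs_mS (x l : ℤ) : mS x ⁻¹' Cs x l = Cs x l := by
  ext v
  simp only [Cs, mS, Set.mem_preimage, Set.mem_ofPred_eq]
  omega

theorem Gate.mir {x l : ℤ} {ω : Cfg} {e : Ed} (h : Gate x l ω e) : Gate x l (mC x ω) (mE x e) := by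
  obtain ⟨h1, h2, ⟨a, p, c, a1, a2, a3, a4, a5, a6, a7, a8⟩,
    ⟨b, q, d, b1, b2, b3, b4, b5, b6, b7, b8⟩⟩ := h
  refine ⟨?_, ?_, ⟨mS x b, mS x q, mS x d, ?_, b2, b3, ?_, b5, ?_, ?_, ?_⟩,
    ⟨mS x a, mS x p, mS x c, ?_, a2, a3, ?_, a5, ?_, ?_, ?_⟩⟩
  · rw [hdv_mE]
    simp only [mQ]
    omega
  · rw [tlv_mE]
    simp only [mQ]
    omega
  · simp only [mS]
    omega
  · simp only [mS]
    omega
  · have := PConn_mS x b6
    rwa [op_mC, Bd_mS, ← ls_mE] at this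
  · have := PConn_mS x b7
    rwa [op_mC, Bx_mS] at this
  · have := PConn_mS x b8
    rwa [op_mC, Cs_mS] at this
  · simp only [mS]
    omega
  · simp only [mS]
    omega
  · have := PConn_mS x a6
    rwa [op_mC', Bd_mS, ← rs_mE] at this
  · have := PConn_mS x a7
    rwa [op_mC', Bx_mS] at this
  · have := PConn_mS x a8
    rwa [op_mC', Cs_mS] at this

/-- **PC** from the gate -/
theorem pc_of (hp : GP) (ht : GT) : PC := by
  obtain ⟨c, l0, hc, h⟩ := hp
  refine ⟨c, l0, hc, ?_⟩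
  intro S u w l H x hl h1 hH hTB hxl hxr
  refine (h x l hl).trans (measureReal_mono ?_ (measure_ne_top _ _))
  rintro ω ⟨e, he⟩
  exact ⟨e, ht S u w l H x ω e h1 hH hTB (by omega) (by omega) he,
    ht S u w l H x (mC x ω) (mE x e) h1 hH hTB (by omega) (by omega) he.mir⟩

/-! ### a common edge gives the event `AA` -/

/-- **GA** -/
theorem ga : GA := by
  intro S u w l H x l' h1 hll hlH hTB hxl hxr ω hω
  obtain ⟨e, ⟨n, n1, n2, n3, n4, n5⟩, ⟨n', m1, m2, m3, m4, m5⟩⟩ := hω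
  have hH : Hy S u w l H x l' := ⟨h1, hll, hlH, hTB, hxl, hxr⟩
  set N := ex S.D S.e0 (S.cf ω) with hN
  have hpos : 0 < N := lt_of_le_of_lt (Nat.zero_le _) n3
  have hpr : Pr2 S.D S.e0 x l (S.cf ω) (S.cf (mC x ω)) n n' N :=
    { sub := fun q hq => hTB.flat.mem _ (hH.lo hq)
      up := hH.up
      mir := fun q hq => by
        rw [hH.cf (mQ_Q2 hq), hH.cf hq]
        show (!(ω (mQ x (mQ x q)))) = _
        rw [mQ_mQ]
      le := n3.le
      lt := fun i hi => lt_ex hi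
      ex := ex_spec hpos
      lt' := fun i hi => lt_ex (hi.trans m3)
      eq := by rw [m4, n4]
      stay := fun i hi hi' => Qx_Q2 (by omega) (n5 i hi hi')
      hd := Qx_Q2 (by omega) (n5 n le_rfl n3) }
  -- the last square is at the side
  have hlast : hdv (st S.e0 (S.cf ω) (N - 1)) ∈ Lo u w l' := by
    have q1 := n5 (N - 1) (by omega) (by omega)
    have q2 := hdv_nx (S.cf ω) (st S.e0 (S.cf ω) (N - 1))
    rw [← st_succ, show N - 1 + 1 = N by omega] at q2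
    have q3 : hdv (st S.e0 (S.cf ω) N) ∉ S.D := ex_spec hpos
    obtain ⟨r1, r2, r3, r4⟩ := q1
    have q4 : ¬ (0 ≤ (hdv (st S.e0 (S.cf ω) N)).2) := fun q5 =>
      q3 (hTB.flat'.mem _ ⟨by omega, by omega, q5, by omega⟩)
    exact ⟨by omega, by omega, r3, by omega⟩
  have hLo : ∀ q : ℤ × ℤ, q ∈ Lo u w l' → q ∈ Lo u w l := fun q hq =>
    ⟨hq.1, hq.2.1, hq.2.2.1, lt_of_lt_of_le hq.2.2.2 hll⟩
  -- the hitting times
  set a := hit S.D S.e0 (Lo u w l) (S.cf ω) with ha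
  set b := hit S.D S.e0 (Lo u w l') (S.cf ω) with hb
  have hbN : b ≤ N - 1 := Nat.sInf_le (Or.inl hlast)
  have hab : a ≤ b := by
    refine Nat.sInf_le ?_
    rcases hit_spec (D := S.D) (e0 := S.e0) (A := Lo u w l') (ξ := S.cf ω)
      ⟨_, Or.inr (ex_spec hpos)⟩ with h | h
    · exact Or.inl (hLo _ h)
    · exact Or.inr h
  have haL : hdv (st S.e0 (S.cf ω) a) ∈ Lo u w l := by
    rcases hit_spec (D := S.D) (e0 := S.e0) (A := Lo u w l) (ξ := S.cf ω)
      ⟨_, Or.inr (ex_spec hpos)⟩ with h | h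
    · exact h
    · exact absurd (lt_ex (show a < N by omega)) h
  have haQ := n5 a n2 (by omega)
  -- the hitting time of the mirror image
  have ha' : hit S.D S.e0 (Lo u w l) (S.cf (mC x ω)) = n' + (a - n) := by
    refine hit_eq (Or.inl ?_) fun i hi => ?_
    · rw [hpr.st_eq _ (by omega), Nat.add_sub_cancel' n2, hdv_mE]
      obtain ⟨c1, c2, c3, c4⟩ := haQ
      obtain ⟨b1, b2, b3, b4⟩ := haL
      exact ⟨by simp only [mQ]; omega, by simp only [mQ]; omega, b3, b4⟩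
    · by_cases h2 : i < n'
      · exact lt_hit (h2.trans_le m2)
      · obtain ⟨j, rfl⟩ : ∃ j, i = n' + j := ⟨i - n', by omega⟩
        rw [hpr.st_eq j (by omega), hdv_mE]
        have h3 := n5 (n + j) (by omega) (by omega)
        refine ⟨fun h4 => ?_, hpr.sub _ (mQ_Q2 (Qx_Q2 (by omega) h3))⟩
        apply (lt_hit (D := S.D) (e0 := S.e0) (A := Lo u w l) (ξ := S.cf ω) (i := n + j)
          (by omega)).1
        obtain ⟨c1, c2, c3, c4⟩ := h3
        obtain ⟨b1, b2, b3, b4⟩ := h4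
        simp only [mQ] at b1 b2 b3 b4
        exact ⟨by omega, by omega, c3, b4⟩
  refine ⟨⟨⟨haQ, ?_⟩, show b < N by omega, fun i hi hi' => n5 i (by omega) (by omega)⟩,
    fun i hi hi' => Qx_Q2 (by omega) (n5 i (by omega) hi')⟩
  show st S.e0 (S.cf (mC x ω)) (hit S.D S.e0 (Lo u w l) (S.cf (mC x ω))) =
    mE x (st S.e0 (S.cf ω) a)
  rw [ha', hpr.st_eq _ (by omega), Nat.add_sub_cancel' n2]

/-- **PA** from PC -/
theorem pa_of (hp : PC) (hg : GA) : PA := by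
  obtain ⟨c, l0, hc, h⟩ := hp
  refine ⟨c, l0, hc, ?_⟩
  intro S u w l H x l' hl h1 hll hH hTB hxl hxr
  exact (h S u w l H x hl (by omega) hH hTB hxl hxr).trans
    (measureReal_mono (hg S u w l H x l' h1 hll hH hTB hxl hxr) (measure_ne_top _ _))

/-- **PA** from the probability and the topology of the gate -/
theorem pa (hp : GP) (ht : GT) : PA := pa_of (pc_of hp ht) ga

end Vale.Agent.P167.H318
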