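import Vale.Agent.P167.H318.Rev
import Vale.Agent.P167.H704.RecDefs

/-!
# P167, block REC: from type B to type A
-/

namespace Vale.Agent.P167.H318

open Vale.Agent.P167 Vale.Agent.P167.H192 Vale.Agent.P145.FB Vale.Agent.P167.H558
open Vale.Agent.P167.H704
open MeasureTheory Relation

/-- first moment from the second moment -/
theorem sm1 (h : SM) : SM1 := by
  obtain ⟨C, hC, h⟩ := h
  refine ⟨(C + 1) / 2, by positivity, ?_⟩
  intro S u w y k ψ hk hy hT hψ hψ2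
  have h1 := h S u w y k ψ hk hy hT hψ hψ2
  have hk0 : (0 : ℝ) < k := by exact_mod_cast hk
  have i1 : Integrable (fun ω => |J S.D S.e0 ψ k (S.cf ω)|) μ :=
    (dep_cf S fun ξ => |J S.D S.e0 ψ k ξ|).integrable
  have i2 : Integrable (fun ω => (J S.D S.e0 ψ k (S.cf ω)) ^ 2 * (1 / (2 * k)) + k / 2) μ :=
    (dep_cf S fun ξ => (J S.D S.e0 ψ k ξ) ^ 2 * (1 / (2 * (k : ℝ))) + k / 2).integrable
  have i3 : Integrable (fun ω => (J S.D S.e0 ψ k (S.cf ω)) ^ 2 * (1 / (2 * (k : ℝ)))) μ :=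
    (dep_cf S fun ξ => (J S.D S.e0 ψ k ξ) ^ 2 * (1 / (2 * (k : ℝ)))).integrable
  calc |S.E (J S.D S.e0 ψ k)| ≤ ∫ ω, |J S.D S.e0 ψ k (S.cf ω)| ∂μ := abs_integral_le_integral_abs
    _ ≤ ∫ ω, ((J S.D S.e0 ψ k (S.cf ω)) ^ 2 * (1 / (2 * k)) + k / 2) ∂μ := by
        refine integral_mono i1 i2 fun ω => ?_
        show |J S.D S.e0 ψ k (S.cf ω)| ≤ (J S.D S.e0 ψ k (S.cf ω)) ^ 2 * (1 / (2 * k)) + k / 2
        set j := J S.D S.e0 ψ k (S.cf ω)
        have h9 : 0 ≤ (|j| - k) ^ 2 := sq_nonneg _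
        have h10 : |j| ^ 2 = j ^ 2 := sq_abs j
        have h11 : j ^ 2 * (1 / (2 * k)) + k / 2 - |j| = (|j| - k) ^ 2 / (2 * k) := by
          rw [← h10]
          field_simp
          ring
        have h12 : 0 ≤ (|j| - k) ^ 2 / (2 * k) := by positivity
        linarith
    _ = (∫ ω, (J S.D S.e0 ψ k (S.cf ω)) ^ 2 ∂μ) * (1 / (2 * k)) + k / 2 := by
        rw [integral_add i3 (integrable_const _), integral_mul_const, integral_const]
        simp
    _ ≤ (C * (k : ℝ) ^ 2) * (1 / (2 * k)) + k / 2 := by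
        have : ∫ ω, (J S.D S.e0 ψ k (S.cf ω)) ^ 2 ∂μ ≤ C * (k : ℝ) ^ 2 := h1
        have h2 : (0 : ℝ) ≤ 1 / (2 * k) := by positivity
        have := mul_le_mul_of_nonneg_right this h2
        linarith
    _ = (C + 1) / 2 * k := by
        field_simp

theorem Visit.mono {D : Finset (ℤ × ℤ)} {e0 : Ed} {m : ℕ} {A B : Set (ℤ × ℤ)} {ξ : Cfg}
    (h : Visit D e0 m A ξ) (hAB : A ⊆ B) : Visit D e0 m B ξ := by
  obtain ⟨j, h1, h2, h3⟩ := h
  exact ⟨j, h1, h2, hAB h3⟩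

theorem rnd (hT : TRI) : RND := by
  intro k w u h0 x0 ρ l ψ Λ a hk hl hkl hlh hρ hψ ha hΛ hsm hBn S hS hF hst
  have key : ∀ ω ∈ (Set.univ : Set Cfg),
      |(S.rv (S.RV (Lo u (2 * w) (4 * l)) ω) ω).E (J S.D S.e0 ψ k)| ≤ a * k +
        Λ * k * (S.rv (S.RV (Lo u (2 * w) (4 * l)) ω) ω).Pr (Lv S u w h0 x0 ρ) := by
    intro ω _
    set S' := S.rv (S.RV (Lo u (2 * w) (4 * l)) ω) ω with hS'
    have hPr : 0 ≤ S'.Pr (Lv S u w h0 x0 ρ) := measureReal_nonneg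
    have hk0 : (0 : ℝ) ≤ k := Nat.cast_nonneg k
    rcases hT S u (2 * w) l (16 * l) x0 ρ k ψ ω hl (by omega) hS hF hst hρ hkl hψ with h1 | h1 | h1
    · have : S'.E (J S.D S.e0 ψ k) = 0 := by
        show ∫ ω', J S.D S.e0 ψ k (S'.cf ω') ∂μ = 0
        rw [integral_congr_ae (ae_of_all _ h1), integral_zero]
      rw [this, abs_zero]
      positivity
    · have h2 : S'.Pr (Lv S u w h0 x0 ρ) = 1 := by
        have : {ω' | ov S'.F S'.z ω' ∈ Lv S u w h0 x0 ρ} = Set.univ := by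
          refine Set.eq_univ_of_forall fun ω' => ?_
          refine (h1 ω').mono fun v hv => ?_
          exact ⟨Lo_mono (by omega) hv.1, hv.2⟩
        show μ.real {ω' | ov S'.F S'.z ω' ∈ Lv S u w h0 x0 ρ} = 1
        rw [this]
        simp
      have h3 : TA S' u (2 * w) (4 * l) := by
        refine ⟨rv_ok hS.toOk _ _, ⟨fun v hv => hS.flat.mem v (Lo_mono (by omega) hv),
          hS.flat.not⟩, fun v hv => ?_⟩
        exact Finset.mem_sdiff.2 ⟨hS.fresh v (Lo_mono (by omega) hv), fun h => RV_notMem h hv⟩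
      have h4 := hsm S' h3
      rw [h2, mul_one]
      have h5 : |S'.E (J S.D S.e0 ψ k)| ≤ Λ * k := h4
      have h6 : 0 ≤ a * k := by positivity
      linarith
    · obtain ⟨x, h2, h3, h4⟩ := h1
      exact hBn S' x h3 h4 hst h2
  have h := rev_stop S (stopSet_RV hS.st (Lo u (2 * w) (4 * l))) (K := ∅) (K' := S.F)
    (B := Set.univ) (fun _ _ _ => rfl) (fun _ _ _ => rfl) (dep_RV _) (J S.D S.e0 ψ k)
    (Lv S u w h0 x0 ρ) key
  rw [setIntegral_univ, Set.univ_inter, probReal_univ, mul_one] at h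
  exact h

end Vale.Agent.P167.H318
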