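import Vale.Agent.P167.H704.Rd
import Vale.Agent.P167.H318.Rnd
import Vale.Agent.P167.H318.BadP
import Vale.Agent.P167.H318.PA
import Vale.Agent.P167.H318.GT
import Vale.Agent.P167.H318.MR
import Vale.Agent.P167.H950.Gp
import Vale.Agent.P167.H950.DT
import Vale.Agent.P167.H632.EscP
import Vale.Agent.P167.H632.SM

/-!
# P167, block NSYM: the claim `CL` from `TRI`
-/

namespace Vale.Agent.P167.H318

open Vale.Agent.P167 Vale.Agent.P167.H704

/-- **PA** without hypothesis -/
theorem pa' : PA := pa H950.gp gt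

/-- **CL** from `TRI` -/
theorem cl_tri (h : TRI) : CL :=
  cl_of pa' H950.dt (badP H632.esc H632.sm) (mr H632.sm) (sm1 H632.sm) (rnd h)

end Vale.Agent.P167.H318
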