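import Vale.Agent.P167.H318.Flow

/-!
# P167, block NSYM, GT part 2: the potential of the past completed by a column; contact lemma
-/

namespace Vale.Agent.P167.H318

open Vale.Agent.P167 Vale.Agent.P167.H192 Vale.Agent.P145.FB Vale.Agent.P167.H558
open MeasureTheory Relation
open Vale.Agent.P167.H632 (Ex sq_inl sq_inr ex_rect)

set_option linter.unusedSimpArgs false

/-! ### the column -/

/-- unit flow down the column `x` from the square `(x, h - 1)` to `(x, -1)` -/
def col (x h : ℤ) : Ed → ℤ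
  | Sum.inl _ => 0
  | Sum.inr v => if v.1 = x ∧ -1 ≤ v.2 ∧ v.2 < h - 1 then -1 else 0

theorem dvg_col {x h : ℤ} (hh : 1 ≤ h) (v : ℤ × ℤ) :
    dvg (col x h) v = (if v = (x, h - 1) then 1 else 0) - (if v = (x, -1) then 1 else 0) := by
  obtain ⟨a, b⟩ := v
  simp only [dvg, col, Prod.mk.injEq]
  split_ifs <;> omega

theorem col_ne {x h : ℤ} {e : Ed} {v : ℤ × ℤ} (he : col x h e ≠ 0) (hv : hdv e = v ∨ tlv e = v) :
    v.1 = x ∧ -1 ≤ v.2 ∧ v.2 ≤ h - 1 := by
  rcases e with s | s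
  · exact absurd rfl he
  · simp only [col] at he
    split_ifs at he with h1
    · rcases sq_inr s with h2 | h2 <;> rw [h2.1, h2.2.1] at hv <;> rcases hv with hv | hv <;>
        subst hv <;> omega
    · exact absurd rfl he

/-! ### corners -/

/-- equal at the corners of the square `v` -/
def FlatAt (u : ℤ × ℤ → ℤ) (v : ℤ × ℤ) : Prop :=
  u (v.1 + 1, v.2) = u v ∧ u (v.1, v.2 + 1) = u v ∧ u (v.1 + 1, v.2 + 1) = u v

theorem flat_of {u : ℤ × ℤ → ℤ} {v : ℤ × ℤ}
    (h : ∀ e, (hdv e = v ∨ tlv e = v) → u (ls e) = u (rs e)) : FlatAt u v := by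
  obtain ⟨a, b⟩ := v
  have h1 : u (a + 1, b) = u (a, b) := by
    have e1 : b - 1 + 1 = b := by ring
    rcases sq_inr (a, b - 1) with h2 | h2
    · have := h (Sum.inr (a, b - 1)) (Or.inr (by rw [h2.2.1]; simp))
      rw [h2.2.2.2.1, h2.2.2.2.2] at this
      simpa only [e1] using this
    · have := h (Sum.inr (a, b - 1)) (Or.inl (by rw [h2.1]; simp))
      rw [h2.2.2.2.1, h2.2.2.2.2] at this
      simpa only [e1] using this.symm
  have h2 : u (a, b + 1) = u (a, b) := by
    have e1 : a - 1 + 1 = a := by ring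
    rcases sq_inl (a - 1, b) with h2 | h2
    · have := h (Sum.inl (a - 1, b)) (Or.inr (by rw [h2.2.1]; simp))
      rw [h2.2.2.2.1, h2.2.2.2.2] at this
      simpa only [e1] using this.symm
    · have := h (Sum.inl (a - 1, b)) (Or.inl (by rw [h2.1]; simp))
      rw [h2.2.2.2.1, h2.2.2.2.2] at this
      simpa only [e1] using this
  have h3 : u (a + 1, b + 1) = u (a, b + 1) := by
    rcases sq_inr (a, b) with h2 | h2
    · have := h (Sum.inr (a, b)) (Or.inl h2.1)
      rw [h2.2.2.2.1, h2.2.2.2.2] at this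
      exact this
    · have := h (Sum.inr (a, b)) (Or.inr h2.2.1)
      rw [h2.2.2.2.1, h2.2.2.2.2] at this
      exact this.symm
  exact ⟨h1, h2, h3.trans h2⟩

theorem FlatAt.step {u : ℤ × ℤ → ℤ} {v s s' : ℤ × ℤ} (h : FlatAt u v) (hs : PStep {v} s s') :
    u s = u s' := by
  obtain ⟨h1, h2, h3⟩ := hs
  rw [Set.mem_singleton_iff] at h3
  obtain ⟨s1, s2⟩ := s
  obtain ⟨t1, t2⟩ := s'
  subst h3
  obtain ⟨f1, f2, f3⟩ := h
  dsimp only at h1 h2 f1 f2 f3
  rcases h1 with rfl | rfl <;> rcases h2 with rfl | rfl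
  · rw [min_eq_left (by omega), min_eq_left (by omega)] at f3
    exact f3.symm
  · rw [min_eq_left (by omega), min_eq_right (by omega)] at f1 f2
    have e1 : s2 - 1 + 1 = s2 := by ring
    rw [e1] at f2
    rw [f2, f1]
  · rw [min_eq_right (by omega), min_eq_left (by omega)] at f1 f2
    have e1 : s1 - 1 + 1 = s1 := by ring
    rw [e1] at f1
    rw [f1, f2]
  · rw [min_eq_right (by omega), min_eq_right (by omega)] at f3
    have e1 : s1 - 1 + 1 = s1 := by ring
    have e2 : s2 - 1 + 1 = s2 := by ring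
    rw [e1, e2] at f3
    exact f3

/-- the other medial edge which enters the same square -/
def opq : Ed → Ed
  | Sum.inl v => if Even (v.1 + v.2) then Sum.inl (v.1 + 1, v.2) else Sum.inl (v.1 - 1, v.2)
  | Sum.inr v => if Even (v.1 + v.2) then Sum.inr (v.1, v.2 - 1) else Sum.inr (v.1, v.2 + 1)

theorem hdv_opq (e : Ed) : hdv (opq e) = hdv e := by
  rcases e with ⟨x, y⟩ | ⟨x, y⟩ <;> by_cases h : Even (x + y) <;>
    simp [opq, hdv, h, ev1, ev2, ev3, ev4]

theorem ls_opq {ω : Cfg} {e : Ed} (h0 : ω (hdv e) = true) : ls (nx ω e) = ls (opq e) := by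
  rcases e with ⟨x, y⟩ | ⟨x, y⟩
  · by_cases h : Even (x + y)
    · simp only [hdv, h, if_true] at h0
      simp [nx, ls, opq, h, h0, ev1, ev2, ev3, ev4]
    · simp only [hdv, h, if_false] at h0
      simp [nx, ls, opq, h, h0, ev1, ev2, ev3, ev4]
  · by_cases h : Even (x + y)
    · simp only [hdv, h, if_true] at h0
      simp [nx, ls, opq, h, h0, ev1, ev2, ev3, ev4]
    · simp only [hdv, h, if_false] at h0
      simp [nx, ls, opq, h, h0, ev1, ev2, ev3, ev4]

theorem rs_opq {ω : Cfg} {e : Ed} (h0 : ω (hdv e) = false) : rs (nx ω e) = rs (opq e) := by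
  rcases e with ⟨x, y⟩ | ⟨x, y⟩
  · by_cases h : Even (x + y)
    · simp only [hdv, h, if_true] at h0
      simp [nx, rs, opq, h, h0, ev1, ev2, ev3, ev4]
    · simp only [hdv, h, if_false] at h0
      simp [nx, rs, opq, h, h0, ev1, ev2, ev3, ev4]
  · by_cases h : Even (x + y)
    · simp only [hdv, h, if_true] at h0
      simp [nx, rs, opq, h, h0, ev1, ev2, ev3, ev4]
    · simp only [hdv, h, if_false] at h0
      simp [nx, rs, opq, h, h0, ev1, ev2, ev3, ev4]

theorem even_corner {e : Ed} {s s' : ℤ × ℤ} (h : PStep {hdv e} s s') (hs : Even (s.1 + s.2)) :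
    s = ls e ∨ s = ls (opq e) := by
  obtain ⟨h1, h2, h3⟩ := h
  rw [Set.mem_singleton_iff] at h3
  obtain ⟨a, b⟩ := s
  obtain ⟨a', b'⟩ := s'
  rcases e with ⟨x, y⟩ | ⟨x, y⟩ <;> by_cases hp : Even (x + y) <;>
    simp only [hdv, hp, if_true, if_false, Prod.mk.injEq] at h3 <;>
    simp only [opq, ls, hp, ev1, ev2, ev3, ev4, if_true, if_false, not_true_eq_false, not_false_eq_true,
      Prod.mk.injEq] <;>
    rw [Int.even_iff] at hs hp <;> dsimp only at * <;> omega

theorem odd_corner {e : Ed} {s s' : ℤ × ℤ} (h : PStep {hdv e} s s') (hs : Odd (s.1 + s.2)) :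
    s = rs e ∨ s = rs (opq e) := by
  obtain ⟨h1, h2, h3⟩ := h
  rw [Set.mem_singleton_iff] at h3
  obtain ⟨a, b⟩ := s
  obtain ⟨a', b'⟩ := s'
  rcases e with ⟨x, y⟩ | ⟨x, y⟩ <;> by_cases hp : Even (x + y) <;>
    simp only [hdv, hp, if_true, if_false, Prod.mk.injEq] at h3 <;>
    simp only [opq, rs, hp, ev1, ev2, ev3, ev4, if_true, if_false, not_true_eq_false, not_false_eq_true,
      Prod.mk.injEq] <;>
    rw [Int.odd_iff] at hs <;> rw [Int.even_iff] at hp <;> dsimp only at * <;> omega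

/-! ### the completed past -/

variable {S : St} {x h : ℤ}

/-- `u` is a potential of the past completed by the column below the tip -/
def Pt0 (S : St) (x h : ℤ) (u : ℤ × ℤ → ℤ) : Prop := ∀ e, (hdv e ∈ S.D ∨ tlv e ∈ S.D) →
  u (ls e) = u (rs e) + cnt S.e0 S.z S.m e + sg e * col x h e

theorem exists_pt0 (hS : S.Ok) (hh : 1 ≤ h) (htip : hdv S.tip = (x, h - 1))
    (hx : (x, (-1 : ℤ)) ∉ S.D) : ∃ u, Pt0 S x h u := by
  obtain ⟨u, hu⟩ := ex_of_coConn hS.co (fun e => sg e * cnt S.e0 S.z S.m e + col x h e) (by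
    intro v hv
    have h1 := dvg_path S.e0 S.z S.m v
    have h2 := dvg_col (x := x) hh v
    have n1 : v ≠ tlv S.e0 := fun h => hS.st (by rw [← h]; exact_mod_cast hv)
    have n2 : v ≠ (x, -1) := fun h => hx (by rw [← h]; exact_mod_cast hv)
    have e3 : hdv (st S.e0 S.z S.m) = (x, h - 1) := htip
    rw [if_neg n1, e3] at h1
    rw [if_neg n2] at h2
    simp only [dvg] at h1 h2
    linarith)
  refine ⟨u, fun e he => ?_⟩
  rw [hu e (by simpa using he), mul_add, ← mul_assoc, sg_sq, one_mul, add_assoc]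

/-- the squares of the column -/
def Cl0 (x h : ℤ) (v : ℤ × ℤ) : Prop := v.1 = x ∧ -1 ≤ v.2 ∧ v.2 ≤ h - 1

theorem hs_notF {v : ℤ × ℤ} (hv : v ∈ S.Hs) : v ∉ S.F ∧ v ∈ S.D := by
  obtain ⟨i, hi, rfl⟩ := hv
  exact ⟨fun h => (Bs.hit_min hi).1 (Finset.mem_coe.2 h), (Bs.hit_min hi).2⟩

/-- no passage near unvisited squares -/
theorem cnt_zero (hS : S.Ok) (htip : hdv S.tip = (x, h - 1)) {v : ℤ × ℤ} (hv : v ∈ S.D)
    (hH : v ∉ S.Hs) (ht : v ≠ (x, h - 1)) {e : Ed} (he : hdv e = v ∨ tlv e = v) :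
    cnt S.e0 S.z S.m e = 0 := by
  by_contra hne
  obtain ⟨i, hi, rfl⟩ := cnt_pos hne
  rcases he with he | he
  · rcases lt_or_eq_of_le hi with h1 | h1
    · exact hH ⟨i, h1, he⟩
    · subst h1
      exact ht (by rw [← he]; exact htip)
  · rcases Nat.eq_zero_or_pos i with rfl | h1
    · exact hS.st (by rw [Bs.st_zero] at he; rw [he]; exact hv)
    · obtain ⟨j, rfl⟩ : ∃ j, i = j + 1 := ⟨i - 1, by omega⟩
      rw [Bs.tlv_st] at he
      exact hH ⟨j, by omega, he⟩

theorem Pt0.flat {u : ℤ × ℤ → ℤ} (hu : Pt0 S x h u) (hS : S.Ok) (hh : 1 ≤ h)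
    (htip : hdv S.tip = (x, h - 1)) {v : ℤ × ℤ} (hv : v ∈ S.D) (hH : v ∉ S.Hs)
    (hc : ¬ Cl0 x h v) : FlatAt u v := by
  refine flat_of fun e he => ?_
  have h1 := hu e (by
    rcases he with he | he
    · exact Or.inl (by rw [he]; exact hv)
    · exact Or.inr (by rw [he]; exact hv))
  have ht : v ≠ (x, h - 1) := by
    rintro rfl
    exact hc ⟨rfl, by dsimp only; omega, le_rfl⟩
  have h2 : col x h e = 0 := by
    by_contra hne
    exact hc (col_ne hne he)
  rw [h1, cnt_zero hS htip hv hH ht he, h2]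
  ring

/-- the jump across the edges of the past -/
theorem Pt0.past {u : ℤ × ℤ → ℤ} (hu : Pt0 S x h u) (hS : S.Ok)
    (htip : S.tip = Sum.inr (x, h - 1)) (hx : (x, (-1 : ℤ)) ∉ S.D)
    (hcol : ∀ y, 0 ≤ y → y ≤ h - 1 → (x, y) ∈ S.F) (hD : hdv S.tip ∈ S.D) {i : ℕ}
    (hi : i ≤ S.m) : u (ls (st S.e0 S.z i)) = u (rs (st S.e0 S.z i)) + 1 := by
  have hm : ∀ j < S.m, hdv (st S.e0 S.z j) ∈ S.D := fun j hj => (Bs.hit_min hj).2
  have h1 : hdv (st S.e0 S.z i) ∈ S.D := by
    rcases lt_or_eq_of_le hi with h1 | h1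
    · exact hm i h1
    · rw [h1]; exact hD
  have h2 : col x h (st S.e0 S.z i) = 0 := by
    by_contra hne
    have h3 := col_ne hne (Or.inl rfl)
    rcases lt_or_eq_of_le hi with h4 | h4
    · have h5 := hs_notF (S := S) ⟨i, h4, rfl⟩
      by_cases h6 : 0 ≤ (hdv (st S.e0 S.z i)).2
      · apply h5.1
        have := hcol _ h6 h3.2.2
        rw [← h3.1] at this
        exact this
      · apply hx
        have h7 : (hdv (st S.e0 S.z i)).2 = -1 := by omega
        rw [← h3.1, ← h7]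
        exact h5.2
    · rw [h4] at hne
      have h5 : st S.e0 S.z S.m = Sum.inr (x, h - 1) := htip
      rw [h5] at hne
      simp only [col] at hne
      split_ifs at hne with h6
      · omega
      · exact hne rfl
  rw [hu _ (Or.inl h1), cnt_eq_one hS.st hm hi, h2]
  ring

/-- the chains of the past -/
theorem Pt0.chain {u : ℤ × ℤ → ℤ} (hp : ∀ i ≤ S.m, u (ls (st S.e0 S.z i)) =
    u (rs (st S.e0 S.z i)) + 1) : ∀ i ≤ S.m, u (ls (st S.e0 S.z i)) = u (ls S.tip) ∧
      u (rs (st S.e0 S.z i)) = u (rs S.tip) := by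
  have key : ∀ k i, i + k = S.m → u (ls (st S.e0 S.z i)) = u (ls S.tip) ∧
      u (rs (st S.e0 S.z i)) = u (rs S.tip) := by
    intro k
    induction k with
    | zero =>
      intro i hi
      rw [show i = S.m by omega]
      exact ⟨rfl, rfl⟩
    | succ k ih =>
      intro i hi
      have h1 := ih (i + 1) (by omega)
      have h2 := hp i (by omega)
      have h3 := hp (i + 1) (by omega)
      rw [Bs.st_succ] at h1 h3
      cases hb : S.z (hdv (st S.e0 S.z i)) with
      | true =>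
        rw [rs_nx hb] at h1 h3
        exact ⟨by rw [← h1.1]; linarith, h1.2⟩
      | false =>
        rw [P167.ls_nx hb] at h1 h3
        exact ⟨h1.1, by rw [← h1.2]; linarith⟩
  intro i hi
  exact key (S.m - i) i (by omega)

/-- **contact lemma**, open paths -/
theorem contact_open {u : ℤ × ℤ → ℤ} (hu : Pt0 S x h u) (hS : S.Ok) (hh : 1 ≤ h)
    (htip : hdv S.tip = (x, h - 1))
    (hp : ∀ i ≤ S.m, u (ls (st S.e0 S.z i)) = u (rs (st S.e0 S.z i)) + 1)
    {Rg : Set (ℤ × ℤ)} (hR : ∀ s ∈ Rg, ∀ s' ∈ Rg, ∀ v, PStep {v} s s' →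
      v ∈ S.D ∧ (v ∈ S.F ∨ v ∈ S.Hs) ∧ ¬ Cl0 x h v) {ω : Cfg} {a c : ℤ × ℤ}
    (ha : Even (a.1 + a.2)) (hac : PConn (op ω) Rg a c) (ua : u a = u (ls S.tip))
    (uc : u c ≠ u (ls S.tip)) :
    ∃ i ≤ S.m, PConn (op (S.cf ω)) Rg a (ls (st S.e0 S.z i)) := by
  obtain ⟨h1, h2⟩ := hac
  by_contra hcon
  have hch := Pt0.chain hp
  have key : PConn (op (S.cf ω)) Rg a c ∧ Even (c.1 + c.2) ∧ u c = u (ls S.tip) := by
    clear uc
    induction h2 with
    | refl => exact ⟨PConn.refl h1, ha, ua⟩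
    | @tail s s' _ hss ih =>
      obtain ⟨i1, i2, i3⟩ := ih
      obtain ⟨v, hv, hst, -⟩ := pstep_sq hss.1
      have hsR : s ∈ Rg := H166.pconn_nm i1
      obtain ⟨k1, k2, k3⟩ := hR s hsR s' hss.2 v hst
      by_cases hF : v ∈ S.F
      · have hH : v ∉ S.Hs := fun h => (hs_notF h).1 hF
        have hfl := hu.flat hS hh htip k1 hH k3
        have hstep : PStep (op (S.cf ω)) s s' := by
          refine ⟨hst.1, hst.2.1, ?_⟩
          rw [hst.2.2]
          show ov S.F S.z ω v = true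
          rw [ov_mem hF]
          exact hv
        exact ⟨⟨i1.1, i1.2.tail ⟨hstep, hss.2⟩⟩, even_step hst i2, by rw [← hfl.step hst]; exact i3⟩
      · exfalso
        obtain ⟨i, hi, hiv⟩ := k2.resolve_left hF
        apply hcon
        rw [← hiv] at hst
        rcases even_corner hst i2 with h4 | h4
        · exact ⟨i, hi.le, by rw [← h4]; exact i1⟩
        · cases hb : S.z (hdv (st S.e0 S.z i)) with
          | true =>
            refine ⟨i + 1, hi, ?_⟩
            rw [Bs.st_succ, ls_opq hb, ← h4]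
            exact i1
          | false =>
            by_cases hc : cnt S.e0 S.z S.m (opq (st S.e0 S.z i)) = 0
            · exfalso
              have h5 := hu (opq (st S.e0 S.z i)) (Or.inl (by rw [hdv_opq, hiv]; exact k1))
              have h6 : col x h (opq (st S.e0 S.z i)) = 0 := by
                by_contra hne
                exact k3 (col_ne hne (Or.inl (by rw [hdv_opq, hiv])))
              rw [hc, h6, ← h4, i3, ← rs_opq hb, ← Bs.st_succ, (hch (i + 1) hi).2] at h5
              have h7 := hp S.m le_rfl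
              have h8 : u (ls S.tip) = u (rs S.tip) + 1 := h7
              linarith
            · obtain ⟨j, hj, hj'⟩ := cnt_pos hc
              exact ⟨j, hj, by rw [hj', ← h4]; exact i1⟩
  exact uc key.2.2

/-- **contact lemma**, dual paths -/
theorem contact_dual {u : ℤ × ℤ → ℤ} (hu : Pt0 S x h u) (hS : S.Ok) (hh : 1 ≤ h)
    (htip : hdv S.tip = (x, h - 1))
    (hp : ∀ i ≤ S.m, u (ls (st S.e0 S.z i)) = u (rs (st S.e0 S.z i)) + 1)
    {Rg : Set (ℤ × ℤ)} (hR : ∀ s ∈ Rg, ∀ s' ∈ Rg, ∀ v, PStep {v} s s' →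
      v ∈ S.D ∧ (v ∈ S.F ∨ v ∈ S.Hs) ∧ ¬ Cl0 x h v) {ω : Cfg} {a c : ℤ × ℤ}
    (ha : Odd (a.1 + a.2)) (hac : PConn (op ω)ᶜ Rg a c) (ua : u a = u (rs S.tip))
    (uc : u c ≠ u (rs S.tip)) :
    ∃ i ≤ S.m, PConn (op (S.cf ω))ᶜ Rg a (rs (st S.e0 S.z i)) := by
  obtain ⟨h1, h2⟩ := hac
  by_contra hcon
  have hch := Pt0.chain hp
  have key : PConn (op (S.cf ω))ᶜ Rg a c ∧ Odd (c.1 + c.2) ∧ u c = u (rs S.tip) := by
    clear uc
    induction h2 with
    | refl => exact ⟨PConn.refl h1, ha, ua⟩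
    | @tail s s' _ hss ih =>
      obtain ⟨i1, i2, i3⟩ := ih
      obtain ⟨v, hv, hst, -⟩ := pstep_sq hss.1
      have hsR : s ∈ Rg := H166.pconn_nm i1
      obtain ⟨k1, k2, k3⟩ := hR s hsR s' hss.2 v hst
      by_cases hF : v ∈ S.F
      · have hH : v ∉ S.Hs := fun h => (hs_notF h).1 hF
        have hfl := hu.flat hS hh htip k1 hH k3
        have hstep : PStep (op (S.cf ω))ᶜ s s' := by
          refine ⟨hst.1, hst.2.1, ?_⟩
          rw [hst.2.2]
          show ¬ (ov S.F S.z ω v = true)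
          rw [ov_mem hF]
          exact hv
        exact ⟨⟨i1.1, i1.2.tail ⟨hstep, hss.2⟩⟩, odd_step hst i2, by rw [← hfl.step hst]; exact i3⟩
      · exfalso
        obtain ⟨i, hi, hiv⟩ := k2.resolve_left hF
        apply hcon
        rw [← hiv] at hst
        rcases odd_corner hst i2 with h4 | h4
        · exact ⟨i, hi.le, by rw [← h4]; exact i1⟩
        · cases hb : S.z (hdv (st S.e0 S.z i)) with
          | false =>
            refine ⟨i + 1, hi, ?_⟩
            rw [Bs.st_succ, rs_opq hb, ← h4]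
            exact i1
          | true =>
            by_cases hc : cnt S.e0 S.z S.m (opq (st S.e0 S.z i)) = 0
            · exfalso
              have h5 := hu (opq (st S.e0 S.z i)) (Or.inl (by rw [hdv_opq, hiv]; exact k1))
              have h6 : col x h (opq (st S.e0 S.z i)) = 0 := by
                by_contra hne
                exact k3 (col_ne hne (Or.inl (by rw [hdv_opq, hiv])))
              rw [hc, h6, ← h4, i3, ← ls_opq hb, ← Bs.st_succ, (hch (i + 1) hi).1] at h5
              have h7 := hp S.m le_rfl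
              have h8 : u (ls S.tip) = u (rs S.tip) + 1 := h7
              linarith
            · obtain ⟨j, hj, hj'⟩ := cnt_pos hc
              exact ⟨j, hj, by rw [hj', ← h4]; exact i1⟩
  exact uc key.2.2

end Vale.Agent.P167.H318
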