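import Vale.Agent.P167.H318.Base

/-!
# P167, block NSYM, GT part 1: potentials of strands
-/

namespace Vale.Agent.P167.H318

open Vale.Agent.P167 Vale.Agent.P167.H192 Vale.Agent.P145.FB Vale.Agent.P167.H558
open MeasureTheory Relation
open Vale.Agent.P167.H632 (Ex sq_inl sq_inr ex_rect)

/-! ### flows -/

/-- number of passages through `e` up to time `n` -/
def cnt (e0 : Ed) (ξ : Cfg) (n : ℕ) (e : Ed) : ℤ :=
  ∑ i ∈ Finset.range (n + 1), if st e0 ξ i = e then 1 else 0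

theorem dvg_inl (c x y : ℤ) (v : ℤ × ℤ) : dvg (fun e => if Sum.inl (x, y) = e then c else 0) v =
    c * ((if v = (x, y) then 1 else 0) - (if v = (x + 1, y) then 1 else 0)) := by
  obtain ⟨a, b⟩ := v
  simp only [dvg, Sum.inl.injEq, Prod.mk.injEq, reduceCtorEq, if_false]
  split_ifs <;> first | (exfalso; omega) | ring

theorem dvg_inr (c x y : ℤ) (v : ℤ × ℤ) : dvg (fun e => if Sum.inr (x, y) = e then c else 0) v =
    c * ((if v = (x, y) then 1 else 0) - (if v = (x, y + 1) then 1 else 0)) := by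
  obtain ⟨a, b⟩ := v
  simp only [dvg, Sum.inr.injEq, Prod.mk.injEq, reduceCtorEq, if_false]
  split_ifs <;> first | (exfalso; omega) | ring

theorem dvg_edge (f : Ed) (v : ℤ × ℤ) :
    dvg (fun e => if f = e then sg e else 0) v =
      (if v = tlv f then 1 else 0) - (if v = hdv f then 1 else 0) := by
  have h0 : (fun e => if f = e then sg e else 0) = fun e => if f = e then sg f else 0 := by
    funext e
    by_cases h : f = e
    · rw [if_pos h, if_pos h, h]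
    · rw [if_neg h, if_neg h]
  rw [h0]
  rcases f with ⟨x, y⟩ | ⟨x, y⟩
  · rw [dvg_inl]
    by_cases h : Even (x + y) <;> simp only [tlv, hdv, sg, h, if_true, if_false] <;> ring
  · rw [dvg_inr]
    by_cases h : Even (x + y) <;> simp only [tlv, hdv, sg, h, if_true, if_false] <;> ring

theorem dvg_add (G G' : Ed → ℤ) (v : ℤ × ℤ) :
    dvg (fun e => G e + G' e) v = dvg G v + dvg G' v := by
  simp only [dvg]; ring

theorem sg_sq (e : Ed) : sg e * sg e = 1 := by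
  rcases e with v | v <;> by_cases h : Even (v.1 + v.2) <;> simp [sg, h]

/-- the flow of a path -/
theorem dvg_path (e0 : Ed) (ξ : Cfg) (n : ℕ) (v : ℤ × ℤ) :
    dvg (fun e => sg e * cnt e0 ξ n e) v =
      (if v = tlv e0 then 1 else 0) - (if v = hdv (st e0 ξ n) then 1 else 0) := by
  induction n with
  | zero =>
    have : (fun e => sg e * cnt e0 ξ 0 e) = fun e => if e0 = e then sg e else 0 := by
      funext e
      have h1 : cnt e0 ξ 0 e = if e0 = e then 1 else 0 := by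
        rw [cnt, zero_add, Finset.sum_range_one]
        rfl
      rw [h1]
      by_cases h : e0 = e
      · rw [if_pos h, if_pos h, mul_one]
      · rw [if_neg h, if_neg h, mul_zero]
    rw [this, dvg_edge]
    rfl
  | succ n ih =>
    have : (fun e => sg e * cnt e0 ξ (n + 1) e) = fun e => sg e * cnt e0 ξ n e +
        (if st e0 ξ (n + 1) = e then sg e else 0) := by
      funext e
      rw [cnt, Finset.sum_range_succ]
      simp only [cnt, mul_add]
      congr 1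
      split_ifs <;> simp
    rw [this, dvg_add, ih, dvg_edge, Bs.tlv_st]
    ring

/-- **the potential of a walk** which starts and ends off `D` -/
theorem walk_pot {D : Set (ℤ × ℤ)} (hD : Ex D) {e0 : Ed} {ξ : Cfg} {n : ℕ} (h0 : tlv e0 ∉ D)
    (hn : hdv (st e0 ξ n) ∉ D) :
    ∃ u : ℤ × ℤ → ℤ, ∀ e, (hdv e ∈ D ∨ tlv e ∈ D) → u (ls e) = u (rs e) + cnt e0 ξ n e := by
  obtain ⟨u, hu⟩ := hD (fun e => sg e * cnt e0 ξ n e) (by
    intro v hv
    have h1 := dvg_path e0 ξ n v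
    have n1 : v ≠ tlv e0 := fun h => h0 (by rw [← h]; exact hv)
    have n2 : v ≠ hdv (st e0 ξ n) := fun h => hn (by rw [← h]; exact hv)
    rw [if_neg n1, if_neg n2] at h1
    simp only [dvg] at h1
    linarith)
  refine ⟨u, fun e he => ?_⟩
  rw [hu e he, ← mul_assoc, sg_sq, one_mul]

/-- passages through `f` and through the next edge -/
theorem cnt_nx {e0 : Ed} {ξ : Cfg} {n : ℕ} {f : Ed} (h0 : tlv e0 ≠ hdv f)
    (hn : hdv (st e0 ξ n) ≠ hdv f) : cnt e0 ξ n (nx ξ f) = cnt e0 ξ n f := by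
  rw [cnt, Finset.sum_range_succ', cnt, Finset.sum_range_succ]
  have e1 : (if st e0 ξ 0 = nx ξ f then (1 : ℤ) else 0) = 0 := by
    refine if_neg fun h => h0 ?_
    rw [Bs.st_zero] at h
    rw [h, tlv_nx]
  have e2 : (if st e0 ξ n = f then (1 : ℤ) else 0) = 0 := if_neg fun h => hn (by rw [h])
  rw [e1, e2]
  congr 1
  refine Finset.sum_congr rfl fun i _ => ?_
  have : (st e0 ξ (i + 1) = nx ξ f) ↔ (st e0 ξ i = f) := by
    rw [Bs.st_succ]
    exact ⟨fun h => (s_nx ξ).1 h, fun h => by rw [h]⟩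
  simp only [this]

theorem cnt_pos {e0 : Ed} {ξ : Cfg} {n : ℕ} {e : Ed} (h : cnt e0 ξ n e ≠ 0) :
    ∃ i ≤ n, st e0 ξ i = e := by
  by_contra hcon
  push Not at hcon
  apply h
  refine Finset.sum_eq_zero fun i hi => ?_
  rw [Finset.mem_range] at hi
  exact if_neg (hcon i (by omega))

/-- a walk which does not leave a finite set before its last step passes each edge at most once -/
theorem cnt_eq_one {D : Finset (ℤ × ℤ)} {e0 : Ed} {ξ : Cfg} {n i : ℕ} (h0 : tlv e0 ∉ D)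
    (hD : ∀ j < n, hdv (st e0 ξ j) ∈ D) (hi : i ≤ n) : cnt e0 ξ n (st e0 ξ i) = 1 := by
  rw [cnt, Finset.sum_eq_single i]
  · rw [if_pos rfl]
  · intro j hj hne
    rw [Finset.mem_range] at hj
    refine if_neg fun h => ?_
    rcases lt_or_gt_of_ne hne with h1 | h1
    · exact Bs.st_inj h0 h1 (fun k hk => hD k (by omega)) h
    · exact Bs.st_inj h0 h1 (fun k hk => hD k (by omega)) h.symm
  · intro hj
    exact absurd (Finset.mem_range.2 (by omega)) hj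

/-! ### steps -/

/-- an open step is a step of the left site -/
theorem open_loc {v s s' : ℤ × ℤ} (hs : Even (s.1 + s.2)) (h : PStep {v} s s') {ξ : Cfg}
    (hv : ξ v = true) : ∃ f, hdv f = v ∧ ls f = s ∧ ls (nx ξ f) = s' ∧ rs (nx ξ f) = rs f := by
  obtain ⟨f, h1, h2⟩ := (H166.exists_edge h).1 hs
  obtain ⟨h3, h4⟩ := (H166.nx_step ξ f).1 (by rw [h1]; exact hv)
  rw [h1, h2] at h3
  exact ⟨f, h1, h2, (H166.opp h h3).symm, h4⟩

/-- a dual open step is a step of the right site -/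
theorem dual_loc {v s s' : ℤ × ℤ} (hs : Odd (s.1 + s.2)) (h : PStep {v} s s') {ξ : Cfg}
    (hv : ξ v = false) : ∃ f, hdv f = v ∧ rs f = s ∧ rs (nx ξ f) = s' ∧ ls (nx ξ f) = ls f := by
  obtain ⟨f, h1, h2⟩ := (H166.exists_edge h).2 hs
  obtain ⟨h3, h4⟩ := (H166.nx_step ξ f).2 (by rw [h1]; exact hv)
  rw [h1, h2] at h4
  exact ⟨f, h1, h2, (H166.opp h h4).symm, h3⟩

/-- the square of a step -/
theorem pstep_sq {F : Set (ℤ × ℤ)} {s s' : ℤ × ℤ} (h : PStep F s s') :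
    ∃ v ∈ F, PStep {v} s s' ∧ v = (min s.1 s'.1, min s.2 s'.2) :=
  ⟨_, h.2.2, ⟨h.1, h.2.1, rfl⟩, rfl⟩

/-- a potential of a walk is constant along the open steps of `D` -/
theorem pot_open {D : Set (ℤ × ℤ)} {e0 : Ed} {ξ : Cfg} {n : ℕ} {u : ℤ × ℤ → ℤ}
    (hu : ∀ e, (hdv e ∈ D ∨ tlv e ∈ D) → u (ls e) = u (rs e) + cnt e0 ξ n e) (h0 : tlv e0 ∉ D)
    (hn : hdv (st e0 ξ n) ∉ D) {v s s' : ℤ × ℤ} (hv : v ∈ D) (hs : Even (s.1 + s.2))
    (h : PStep {v} s s') (ho : ξ v = true) : u s = u s' := by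
  obtain ⟨f, h1, h2, h3, h4⟩ := open_loc hs h ho
  have e1 := hu f (Or.inl (by rw [h1]; exact hv))
  have e2 := hu (nx ξ f) (Or.inr (by rw [tlv_nx, h1]; exact hv))
  rw [cnt_nx (fun h => h0 (by rw [h, h1]; exact hv)) (fun h => hn (by rw [h, h1]; exact hv)), h3,
    h4] at e2
  rw [h2] at e1
  rw [e1, e2]

theorem pot_dual {D : Set (ℤ × ℤ)} {e0 : Ed} {ξ : Cfg} {n : ℕ} {u : ℤ × ℤ → ℤ}
    (hu : ∀ e, (hdv e ∈ D ∨ tlv e ∈ D) → u (ls e) = u (rs e) + cnt e0 ξ n e) (h0 : tlv e0 ∉ D)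
    (hn : hdv (st e0 ξ n) ∉ D) {v s s' : ℤ × ℤ} (hv : v ∈ D) (hs : Odd (s.1 + s.2))
    (h : PStep {v} s s') (ho : ξ v = false) : u s = u s' := by
  obtain ⟨f, h1, h2, h3, h4⟩ := dual_loc hs h ho
  have e1 := hu f (Or.inl (by rw [h1]; exact hv))
  have e2 := hu (nx ξ f) (Or.inr (by rw [tlv_nx, h1]; exact hv))
  rw [cnt_nx (fun h => h0 (by rw [h, h1]; exact hv)) (fun h => hn (by rw [h, h1]; exact hv)), h3,
    h4] at e2
  rw [h2] at e1
  linarith

theorem odd_step {F : Set (ℤ × ℤ)} {s s' : ℤ × ℤ} (h : PStep F s s') (hs : Odd (s.1 + s.2)) :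
    Odd (s'.1 + s'.2) := by
  obtain ⟨h1, h2, -⟩ := h
  rw [Int.odd_iff] at hs ⊢
  omega

theorem even_step {F : Set (ℤ × ℤ)} {s s' : ℤ × ℤ} (h : PStep F s s') (hs : Even (s.1 + s.2)) :
    Even (s'.1 + s'.2) := by
  obtain ⟨h1, h2, -⟩ := h
  rw [Int.even_iff] at hs ⊢
  omega

/-- along open paths -/
theorem pot_open_path {D : Set (ℤ × ℤ)} {e0 : Ed} {ξ : Cfg} {n : ℕ} {u : ℤ × ℤ → ℤ}
    (hu : ∀ e, (hdv e ∈ D ∨ tlv e ∈ D) → u (ls e) = u (rs e) + cnt e0 ξ n e) (h0 : tlv e0 ∉ D)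
    (hn : hdv (st e0 ξ n) ∉ D) {Rg : Set (ℤ × ℤ)}
    (hR : ∀ s ∈ Rg, ∀ s' ∈ Rg, ∀ v, PStep {v} s s' → v ∈ D) {s s' : ℤ × ℤ}
    (hs : Even (s.1 + s.2)) (h : PConn (op ξ) Rg s s') : u s = u s' := by
  obtain ⟨h1, h2⟩ := h
  have key : Even (s'.1 + s'.2) ∧ s' ∈ Rg ∧ u s = u s' := by
    induction h2 with
    | refl => exact ⟨hs, h1, rfl⟩
    | @tail a b _ hab ih =>
      obtain ⟨i1, i2, i3⟩ := ih
      obtain ⟨v, hv, hst, -⟩ := pstep_sq hab.1
      exact ⟨even_step hst i1, hab.2, i3.trans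
        (pot_open hu h0 hn (hR a i2 b hab.2 v hst) i1 hst hv)⟩
  exact key.2.2

theorem pot_dual_path {D : Set (ℤ × ℤ)} {e0 : Ed} {ξ : Cfg} {n : ℕ} {u : ℤ × ℤ → ℤ}
    (hu : ∀ e, (hdv e ∈ D ∨ tlv e ∈ D) → u (ls e) = u (rs e) + cnt e0 ξ n e) (h0 : tlv e0 ∉ D)
    (hn : hdv (st e0 ξ n) ∉ D) {Rg : Set (ℤ × ℤ)}
    (hR : ∀ s ∈ Rg, ∀ s' ∈ Rg, ∀ v, PStep {v} s s' → v ∈ D) {s s' : ℤ × ℤ}
    (hs : Odd (s.1 + s.2)) (h : PConn (op ξ)ᶜ Rg s s') : u s = u s' := by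
  obtain ⟨h1, h2⟩ := h
  have key : Odd (s'.1 + s'.2) ∧ s' ∈ Rg ∧ u s = u s' := by
    induction h2 with
    | refl => exact ⟨hs, h1, rfl⟩
    | @tail a b _ hab ih =>
      obtain ⟨i1, i2, i3⟩ := ih
      obtain ⟨v, hv, hst, -⟩ := pstep_sq hab.1
      have hv' : ξ v = false := by
        rw [← Bool.not_eq_true]; exact hv
      exact ⟨odd_step hst i1, hab.2, i3.trans
        (pot_dual hu h0 hn (hR a i2 b hab.2 v hst) i1 hst hv')⟩
  exact key.2.2

end Vale.Agent.P167.H318
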