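import Vale.Agent.P167.H318.Defs

/-!
# P167, block NSYM: the mirror image `x ↦ 2 c + 1 - x` (equivariance)
-/

namespace Vale.Agent.P167.H318

open Vale.Agent.P167 Vale.Agent.P167.H192 Vale.Agent.P145.FB Vale.Agent.P167.H558
open MeasureTheory Relation

set_option linter.unusedSimpArgs false
set_option linter.unreachableTactic false
set_option linter.unusedTactic false


theorem mQ_mQ (c : ℤ) (v : ℤ × ℤ) : mQ c (mQ c v) = v := by
  simp [mQ]

theorem mS_mS (c : ℤ) (v : ℤ × ℤ) : mS c (mS c v) = v := by
  simp [mS]

theorem mE_mE (c : ℤ) (e : Ed) : mE c (mE c e) = e := by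
  rcases e with v | v
  · simp only [mE]
    (first | rfl | (congr 1; first | rfl | (ext <;> simp <;> ring)))
  · simp only [mE]
    (first | rfl | (congr 1; first | rfl | (ext <;> simp <;> ring)))

theorem mC_mC (c : ℤ) (ω : Cfg) : mC c (mC c ω) = ω := by
  funext v
  simp [mC, mQ_mQ]

theorem mQ_inj (c : ℤ) : Function.Injective (mQ c) := fun a b h => by
  rw [← mQ_mQ c a, h, mQ_mQ]

theorem mE_inj (c : ℤ) : Function.Injective (mE c) := fun a b h => by
  rw [← mE_mE c a, h, mE_mE]

/-- the mirror image of squares as an equivalence -/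
def mQe (c : ℤ) : (ℤ × ℤ) ≃ (ℤ × ℤ) := ⟨mQ c, mQ c, mQ_mQ c, mQ_mQ c⟩

theorem even_a {a b c : ℤ} : Even (2 * c - a - 1 + b) ↔ ¬ Even (a + b) := by
  rw [Int.even_iff, Int.even_iff]; omega

theorem even_b {a b c : ℤ} : Even (2 * c - a + b) ↔ Even (a + b) := by
  rw [Int.even_iff, Int.even_iff]; omega

theorem hdv_mE (c : ℤ) (e : Ed) : hdv (mE c e) = mQ c (hdv e) := by
  rcases e with v | v
  · by_cases h : Even (v.1 + v.2)
    · have h' : ¬ Even (2 * c - v.1 - 1 + v.2) := fun h2 => even_a.1 h2 h
      simp only [hdv, mE, mQ, h, h', if_true, if_false]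
      (first | rfl | (ext <;> simp <;> ring) | (ext <;> simp))
    · have h' : Even (2 * c - v.1 - 1 + v.2) := even_a.2 h
      simp only [hdv, mE, mQ, h, h', if_true, if_false]
      (first | rfl | (ext <;> simp <;> ring) | (ext <;> simp))
  · by_cases h : Even (v.1 + v.2)
    · have h' : Even (2 * c - v.1 + v.2) := even_b.2 h
      simp only [hdv, mE, mQ, h, h', if_true]
    · have h' : ¬ Even (2 * c - v.1 + v.2) := fun h2 => h (even_b.1 h2)
      simp only [hdv, mE, mQ, h, h', if_false]

theorem tlv_mE (c : ℤ) (e : Ed) : tlv (mE c e) = mQ c (tlv e) := by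
  rcases e with v | v
  · by_cases h : Even (v.1 + v.2)
    · have h' : ¬ Even (2 * c - v.1 - 1 + v.2) := fun h2 => even_a.1 h2 h
      simp only [tlv, mE, mQ, h, h', if_true, if_false]
      (first | rfl | (ext <;> simp <;> ring) | (ext <;> simp))
    · have h' : Even (2 * c - v.1 - 1 + v.2) := even_a.2 h
      simp only [tlv, mE, mQ, h, h', if_true, if_false]
      (first | rfl | (ext <;> simp <;> ring) | (ext <;> simp))
  · by_cases h : Even (v.1 + v.2)
    · have h' : Even (2 * c - v.1 + v.2) := even_b.2 h
      simp only [tlv, mE, mQ, h, h', if_true]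
    · have h' : ¬ Even (2 * c - v.1 + v.2) := fun h2 => h (even_b.1 h2)
      simp only [tlv, mE, mQ, h, h', if_false]

/-- left and right are exchanged -/
theorem ls_mE (c : ℤ) (e : Ed) : ls (mE c e) = mS c (rs e) := by
  rcases e with v | v
  · by_cases h : Even (v.1 + v.2)
    · have h' : ¬ Even (2 * c - v.1 - 1 + v.2) := fun h2 => even_a.1 h2 h
      simp only [ls, rs, mE, mS, h, h', if_true, if_false]
      (first | rfl | (ext <;> simp <;> ring) | (ext <;> simp))
    · have h' : Even (2 * c - v.1 - 1 + v.2) := even_a.2 h
      simp only [ls, rs, mE, mS, h, h', if_true, if_false]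
      (first | rfl | (ext <;> simp <;> ring) | (ext <;> simp))
  · by_cases h : Even (v.1 + v.2)
    · have h' : Even (2 * c - v.1 + v.2) := even_b.2 h
      simp only [ls, rs, mE, mS, h, h', if_true]
      (first | rfl | (ext <;> simp <;> ring) | (ext <;> simp))
    · have h' : ¬ Even (2 * c - v.1 + v.2) := fun h2 => h (even_b.1 h2)
      simp only [ls, rs, mE, mS, h, h', if_false]
      (first | rfl | (ext <;> simp <;> ring) | (ext <;> simp))

theorem rs_mE (c : ℤ) (e : Ed) : rs (mE c e) = mS c (ls e) := by
  rw [← mS_mS c (rs (mE c e)), ← ls_mE, mE_mE]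

/-- the horizontal directions are exchanged, the vertical ones are kept -/
theorem sg_mE_inl (c : ℤ) (v : ℤ × ℤ) : sg (mE c (Sum.inl v)) = - sg (Sum.inl v) := by
  by_cases h : Even (v.1 + v.2)
  · have h' : ¬ Even (2 * c - v.1 - 1 + v.2) := fun h2 => even_a.1 h2 h
    simp only [sg, mE, h, h', if_true, if_false]
  · have h' : Even (2 * c - v.1 - 1 + v.2) := even_a.2 h
    simp only [sg, mE, h, h', if_true, if_false, neg_neg]

/-- **equivariance** of the interface rule -/
theorem nx_mE (c : ℤ) (ω : Cfg) (e : Ed) : nx (mC c ω) (mE c e) = mE c (nx ω e) := by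
  rcases e with v | v
  · by_cases h : Even (v.1 + v.2)
    · have h' : ¬ Even (2 * c - v.1 - 1 + v.2) := fun h2 => even_a.1 h2 h
      have hq : mQ c (2 * c - v.1 - 1, v.2) = (v.1 + 1, v.2) := by
        simp only [mQ]; (first | rfl | (ext <;> simp <;> ring) | (ext <;> simp))
      cases hω : ω (v.1 + 1, v.2) with
      | true =>
        simp only [nx, mE, mC, h, h', if_true, if_false, hq, hω, Bool.not_true]
        simp only [Bool.false_eq_true, if_false] <;> (first | rfl | (congr 1; first | rfl | (ext <;> simp <;> ring)))
      | false =>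
        simp only [nx, mE, mC, h, h', if_true, if_false, hq, hω, Bool.not_false]
        simp only [Bool.false_eq_true, if_false] <;> (first | rfl | (congr 1; first | rfl | (ext <;> simp <;> ring)))
    · have h' : Even (2 * c - v.1 - 1 + v.2) := even_a.2 h
      have hq : mQ c (2 * c - v.1 - 1 + 1, v.2) = v := by
        simp only [mQ]; (first | rfl | (ext <;> simp <;> ring) | (ext <;> simp))
      cases hω : ω v with
      | true =>
        simp only [nx, mE, mC, h, h', if_true, if_false, hq, hω, Bool.not_true]
        simp only [Bool.false_eq_true, if_false] <;> (first | rfl | (congr 1; first | rfl | (ext <;> simp <;> ring)))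
      | false =>
        simp only [nx, mE, mC, h, h', if_true, if_false, hq, hω, Bool.not_false]
        simp only [Bool.false_eq_true, if_false] <;> (first | rfl | (congr 1; first | rfl | (ext <;> simp <;> ring)))
  · by_cases h : Even (v.1 + v.2)
    · have h' : Even (2 * c - v.1 + v.2) := even_b.2 h
      have hq : mQ c (2 * c - v.1, v.2) = v := by
        simp only [mQ]; (first | rfl | (ext <;> simp <;> ring) | (ext <;> simp))
      cases hω : ω v with
      | true =>
        simp only [nx, mE, mC, h, h', if_true, if_false, hq, hω, Bool.not_true]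
        simp only [Bool.false_eq_true, if_false] <;> (first | rfl | (congr 1; first | rfl | (ext <;> simp <;> ring)))
      | false =>
        simp only [nx, mE, mC, h, h', if_true, if_false, hq, hω, Bool.not_false]
        simp only [Bool.false_eq_true, if_false] <;> (first | rfl | (congr 1; first | rfl | (ext <;> simp <;> ring)))
    · have h' : ¬ Even (2 * c - v.1 + v.2) := fun h2 => h (even_b.1 h2)
      have hq : mQ c (2 * c - v.1, v.2 + 1) = (v.1, v.2 + 1) := by
        simp only [mQ]; (first | rfl | (ext <;> simp <;> ring) | (ext <;> simp))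
      cases hω : ω (v.1, v.2 + 1) with
      | true =>
        simp only [nx, mE, mC, h, h', if_true, if_false, hq, hω, Bool.not_true]
        simp only [Bool.false_eq_true, if_false] <;> (first | rfl | (congr 1; first | rfl | (ext <;> simp <;> ring)))
      | false =>
        simp only [nx, mE, mC, h, h', if_true, if_false, hq, hω, Bool.not_false]
        simp only [Bool.false_eq_true, if_false] <;> (first | rfl | (congr 1; first | rfl | (ext <;> simp <;> ring)))

/-! ### the mirror image preserves the measure -/

theorem fair_not : fair.map not = fair := by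
  have hm : Measurable not := measurable_of_finite _
  unfold fair
  rw [Measure.map_add _ _ hm, Measure.map_smul, Measure.map_smul, Measure.map_dirac' hm,
    Measure.map_dirac' hm]
  simp only [Bool.not_true, Bool.not_false]
  rw [add_comm]

theorem meas_mC (c : ℤ) : Measurable (mC c) :=
  measurable_pi_lambda _ fun v =>
    Measurable.comp (g := not) (measurable_of_finite _) (measurable_pi_apply (mQ c v))

theorem map_mC (c : ℤ) : μ.map (mC c) = μ := by
  have h1 : μ.map (fun ω : Cfg => fun v => ω (mQe c v)) = μ := by
    have h := Measure.infinitePi_map_piCongrLeft (μ := fun _ : ℤ × ℤ => fair) (mQe c).symm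
    have e : ⇑(MeasurableEquiv.piCongrLeft (fun _ => Bool) (mQe c).symm) =
        fun ω : Cfg => fun v => ω (mQe c v) := by
      funext ω i
      rw [MeasurableEquiv.coe_piCongrLeft]
      have h1 := Equiv.piCongrLeft_apply_apply (fun _ : ℤ × ℤ => Bool) (mQe c).symm ω (mQe c i)
      rw [Equiv.symm_apply_apply] at h1
      exact h1
    rw [e] at h
    exact h
  have h2 : μ.map (fun ω : Cfg => fun v => !(ω v)) = μ := by
    have h := Measure.infinitePi_map_pi (μ := fun _ : ℤ × ℤ => fair)
      (f := fun _ : ℤ × ℤ => not) (fun _ => measurable_of_finite _)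
    simp only [fair_not] at h
    exact h
  have m1 : Measurable (fun ω : Cfg => fun v => ω (mQe c v)) :=
    measurable_pi_lambda _ fun v => measurable_pi_apply _
  have m2 : Measurable (fun ω : Cfg => fun v => !(ω v)) :=
    measurable_pi_lambda _ fun v =>
      Measurable.comp (g := not) (measurable_of_finite _) (measurable_pi_apply v)
  have h3 := Measure.map_map (μ := μ) m2 m1
  rw [h1, h2] at h3
  exact h3.symm

theorem mp_mC (c : ℤ) : MeasurePreserving (mC c) μ μ := ⟨meas_mC c, map_mC c⟩

end Vale.Agent.P167.H318
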