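import Vale.Agent.P167.H318.Defs
import Vale.Agent.P167.H632.Esc

/-!
# P167, block NSYM: a finite set of squares with connected complement has potentials
-/

namespace Vale.Agent.P167.H318

open Vale.Agent.P167 Vale.Agent.P145.FB Relation
open Vale.Agent.P167.H632 (Ex sq_inl sq_inr ex_rect)

/-- net flow out of a square -/
def dvg (G : Ed → ℤ) (v : ℤ × ℤ) : ℤ :=
  G (Sum.inl v) + G (Sum.inr v) - G (Sum.inl (v.1 - 1, v.2)) - G (Sum.inr (v.1, v.2 - 1))

theorem edge_flow {b c : ℤ × ℤ} (h : Adj b c) : ∃ E : Ed → ℤ,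
    (∀ e, E e ≠ 0 → (hdv e = b ∧ tlv e = c) ∨ (hdv e = c ∧ tlv e = b)) ∧
    ∀ v, dvg E v = (if v = b then 1 else 0) - (if v = c then 1 else 0) := by
  obtain ⟨b1, b2⟩ := b
  obtain ⟨c1, c2⟩ := c
  simp only [Adj] at h
  rcases h with ⟨h1, h2 | h2⟩ | ⟨h1, h2 | h2⟩
  · subst h1 h2
    refine ⟨fun e => if e = Sum.inr (b1, b2) then 1 else 0, ?_, ?_⟩
    · intro e he
      have : e = Sum.inr (b1, b2) := by by_contra h; simp [h] at he
      subst this
      rcases sq_inr (b1, b2) with h | h <;> simp [h.1, h.2.1]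
    · rintro ⟨x, y⟩
      simp only [dvg, Sum.inr.injEq, Prod.mk.injEq, reduceCtorEq, if_false]
      split_ifs <;> omega
  · subst h1 h2
    refine ⟨fun e => if e = Sum.inr (b1, b2 - 1) then -1 else 0, ?_, ?_⟩
    · intro e he
      have : e = Sum.inr (b1, b2 - 1) := by by_contra h; simp [h] at he
      subst this
      rcases sq_inr (b1, b2 - 1) with h | h <;> simp [h.1, h.2.1]
    · rintro ⟨x, y⟩
      simp only [dvg, Sum.inr.injEq, Prod.mk.injEq, reduceCtorEq, if_false]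
      split_ifs <;> omega
  · subst h1 h2
    refine ⟨fun e => if e = Sum.inl (b1, b2) then 1 else 0, ?_, ?_⟩
    · intro e he
      have : e = Sum.inl (b1, b2) := by by_contra h; simp [h] at he
      subst this
      rcases sq_inl (b1, b2) with h | h <;> simp [h.1, h.2.1]
    · rintro ⟨x, y⟩
      simp only [dvg, Sum.inl.injEq, Prod.mk.injEq, reduceCtorEq, if_false]
      split_ifs <;> omega
  · subst h1 h2
    refine ⟨fun e => if e = Sum.inl (b1 - 1, b2) then -1 else 0, ?_, ?_⟩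
    · intro e he
      have : e = Sum.inl (b1 - 1, b2) := by by_contra h; simp [h] at he
      subst this
      rcases sq_inl (b1 - 1, b2) with h | h <;> simp [h.1, h.2.1]
    · rintro ⟨x, y⟩
      simp only [dvg, Sum.inl.injEq, Prod.mk.injEq, reduceCtorEq, if_false]
      split_ifs <;> omega

theorem chain_flow {D : Set (ℤ × ℤ)} {a b : ℤ × ℤ} (ha : a ∉ D)
    (h : ReflTransGen (fun a b => Adj a b ∧ b ∉ D) a b) : ∃ K : Ed → ℤ,
    (∀ e, (hdv e ∈ D ∨ tlv e ∈ D) → K e = 0) ∧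
    ∀ v, dvg K v = (if v = a then 1 else 0) - (if v = b then 1 else 0) := by
  have key : b ∉ D ∧ ∃ K : Ed → ℤ, (∀ e, (hdv e ∈ D ∨ tlv e ∈ D) → K e = 0) ∧
      ∀ v, dvg K v = (if v = a then 1 else 0) - (if v = b then 1 else 0) := by
    induction h with
    | refl => exact ⟨ha, fun _ => 0, fun _ _ => rfl, fun v => by simp [dvg]⟩
    | @tail b c _ hbc ih =>
      obtain ⟨hb, K, h1, h2⟩ := ih
      obtain ⟨E, h3, h4⟩ := edge_flow hbc.1
      refine ⟨hbc.2, fun e => K e + E e, ?_, ?_⟩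
      · intro e he
        have : E e = 0 := by
          by_contra hne
          rcases h3 e hne with ⟨h5, h6⟩ | ⟨h5, h6⟩ <;> rw [h5, h6] at he <;>
            rcases he with he | he
          · exact hb he
          · exact hbc.2 he
          · exact hbc.2 he
          · exact hb he
        show K e + E e = 0
        rw [h1 e he, this, add_zero]
      · intro v
        have e1 := h2 v
        have e2 := h4 v
        simp only [dvg] at e1 e2 ⊢
        linarith
  exact key.2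

open Classical in
/-- **A finite set with connected complement has potentials.** -/
theorem ex_of_coConn {D : Finset (ℤ × ℤ)} (h : CoConn D) : Ex (↑D : Set (ℤ × ℤ)) := by
  intro g hg
  -- a box
  obtain ⟨N, hN⟩ : ∃ N : ℤ, ∀ v ∈ D, -N ≤ v.1 ∧ v.1 < N ∧ -N ≤ v.2 ∧ v.2 < N := by
    refine ⟨∑ v ∈ D, (|v.1| + |v.2|) + 1, fun v hv => ?_⟩
    have h1 : |v.1| + |v.2| ≤ ∑ v ∈ D, (|v.1| + |v.2|) :=
      Finset.single_le_sum (f := fun v : ℤ × ℤ => |v.1| + |v.2|)
        (fun i _ => add_nonneg (abs_nonneg _) (abs_nonneg _)) hv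
    have h2 := abs_nonneg v.1
    have h3 := abs_nonneg v.2
    have h4 := neg_abs_le v.1
    have h5 := neg_abs_le v.2
    have h6 := le_abs_self v.1
    have h7 := le_abs_self v.2
    refine ⟨?_, ?_, ?_, ?_⟩ <;> linarith
  set R : Finset (ℤ × ℤ) := Finset.Ico (-N) N ×ˢ Finset.Ico (-N) N with hR
  have memR : ∀ v : ℤ × ℤ, v ∈ R ↔ -N ≤ v.1 ∧ v.1 < N ∧ -N ≤ v.2 ∧ v.2 < N := by
    intro v
    simp only [hR, Finset.mem_product, Finset.mem_Ico]
    tauto
  have hv0 : ((N, 0) : ℤ × ℤ) ∉ R := by rw [memR]; simp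
  have hv0D : ((N, 0) : ℤ × ℤ) ∉ D := fun h => hv0 ((memR _).2 (hN _ h))
  have hch : ∀ v : ℤ × ℤ, ∃ K : Ed → ℤ, v ∉ D →
      (∀ e, (hdv e ∈ (↑D : Set (ℤ × ℤ)) ∨ tlv e ∈ (↑D : Set (ℤ × ℤ))) → K e = 0) ∧
      ∀ v', dvg K v' = (if v' = v then 1 else 0) - (if v' = (N, 0) then 1 else 0) := by
    intro v
    by_cases hv : v ∈ D
    · exact ⟨fun _ => 0, fun h => absurd hv h⟩
    · obtain ⟨K, h1, h2⟩ := chain_flow (D := (↑D : Set (ℤ × ℤ))) (a := v) (b := (N, 0))
        (by exact_mod_cast hv) (by simpa using h v (N, 0) hv hv0D)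
      exact ⟨K, fun _ => ⟨h1, h2⟩⟩
  choose K hK using hch
  set g' : Ed → ℤ := fun e => if hdv e ∈ D ∨ tlv e ∈ D then g e else 0 with hg'
  set c : ℤ × ℤ → ℤ := dvg g' with hc
  set g'' : Ed → ℤ := fun e => g' e - ∑ v ∈ R \ D, c v * K v e with hg''
  have hinl : ∀ v : ℤ × ℤ, v ∈ D → (hdv (Sum.inl v) ∈ D ∨ tlv (Sum.inl v) ∈ D) := by
    intro v hv
    rcases sq_inl v with h | h <;> simp [h.1, h.2.1, hv]
  have hinr : ∀ v : ℤ × ℤ, v ∈ D → (hdv (Sum.inr v) ∈ D ∨ tlv (Sum.inr v) ∈ D) := by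
    intro v hv
    rcases sq_inr v with h | h <;> simp [h.1, h.2.1, hv]
  have hinl' : ∀ v : ℤ × ℤ, v ∈ D →
      (hdv (Sum.inl (v.1 - 1, v.2)) ∈ D ∨ tlv (Sum.inl (v.1 - 1, v.2)) ∈ D) := by
    intro v hv
    rcases sq_inl (v.1 - 1, v.2) with h | h <;> simp [h.1, h.2.1, hv]
  have hinr' : ∀ v : ℤ × ℤ, v ∈ D →
      (hdv (Sum.inr (v.1, v.2 - 1)) ∈ D ∨ tlv (Sum.inr (v.1, v.2 - 1)) ∈ D) := by
    intro v hv
    rcases sq_inr (v.1, v.2 - 1) with h | h <;> simp [h.1, h.2.1, hv]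
  have cD : ∀ v ∈ D, c v = 0 := by
    intro v hv
    have := hg v (by exact_mod_cast hv)
    simp only [hc, dvg, hg', if_pos (hinl v hv), if_pos (hinr v hv), if_pos (hinl' v hv),
      if_pos (hinr' v hv)]
    linarith
  have hdv'' : ∀ v ∈ R, dvg g'' v = 0 := by
    intro v hv
    have e1 : dvg g'' v = c v - ∑ v' ∈ R \ D, c v' * dvg (K v') v := by
      simp only [hc, hg'', dvg, mul_sub, mul_add, Finset.sum_sub_distrib, Finset.sum_add_distrib]
      ring
    have e2 : ∑ v' ∈ R \ D, c v' * dvg (K v') v = ∑ v' ∈ R \ D, if v = v' then c v' else 0 := by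
      refine Finset.sum_congr rfl fun v' hv' => ?_
      have hne : v ≠ (N, 0) := fun h => hv0 (by rw [← h]; exact hv)
      rw [(hK v' (Finset.mem_sdiff.1 hv').2).2 v, if_neg hne]
      split_ifs <;> ring
    rw [e1, e2, Finset.sum_ite_eq]
    by_cases hD : v ∈ D
    · rw [if_neg (fun h => (Finset.mem_sdiff.1 h).2 hD), cD v hD, sub_zero]
    · rw [if_pos (Finset.mem_sdiff.2 ⟨hv, hD⟩), sub_self]
  obtain ⟨u, hu⟩ := ex_rect (-N) N (-N) N g'' (by
    intro v hv
    have := hdv'' v ((memR v).2 hv)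
    simp only [dvg] at this
    linarith)
  refine ⟨u, fun e he => ?_⟩
  have he' : hdv e ∈ D ∨ tlv e ∈ D := by simpa using he
  have h1 := hu e (by
    rcases he' with h | h
    · exact Or.inl (hN _ h)
    · exact Or.inr (hN _ h))
  rw [h1]
  have h2 : g'' e = g e := by
    simp only [hg'', hg', if_pos he']
    rw [Finset.sum_eq_zero, sub_zero]
    intro v hv
    rw [(hK v (Finset.mem_sdiff.1 hv).2).1 e he, mul_zero]
  rw [h2]

end Vale.Agent.P167.H318
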