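import Vale.Agent.P167.H318.Bad

/-!
# P167, block NSYM: revealing a constant set of squares
-/

namespace Vale.Agent.P167.H318

open Vale.Agent.P167 Vale.Agent.P167.H192 Vale.Agent.P145.FB Vale.Agent.P167.H558
open MeasureTheory Relation

theorem Pr_eq (S : St) (A : Set Cfg) : S.Pr A = S.E (A.indicator 1) := by
  have mA : MeasurableSet {ω | ov S.F S.z ω ∈ A} := Dep.measurableSet (dep_ov S.F S.z fun ξ => ξ ∈ A)
  have e : (fun ω => A.indicator (1 : Cfg → ℝ) (ov S.F S.z ω)) =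
      {ω | ov S.F S.z ω ∈ A}.indicator 1 := by
    funext ω
    by_cases h : ov S.F S.z ω ∈ A
    · rw [Set.indicator_of_mem h,
        Set.indicator_of_mem (show ω ∈ {ω | ov S.F S.z ω ∈ A} from h)]
      rfl
    · rw [Set.indicator_of_notMem h,
        Set.indicator_of_notMem (show ω ∉ {ω | ov S.F S.z ω ∈ A} from h)]
  show μ.real _ = ∫ ω, A.indicator (1 : Cfg → ℝ) (ov S.F S.z ω) ∂μ
  rw [e, integral_indicator_one mA]

theorem Dep.of_past {α : Type*} {K : Finset (ℤ × ℤ)} {G : Cfg → α} (h : Past (fun _ => K) G) :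
    Dep K G := fun ω ω' h' => (h ω ω' fun q hq => (h' q hq).symm).symm

/-- an event of the past multiplies the mean value in the new state -/
theorem setInt_rv (S : St) {R : Cfg → Finset (ℤ × ℤ)} (hR : StopSet R) {K : Finset (ℤ × ℤ)}
    {B : Set Cfg} (hB : Past R fun ω => ω ∈ B) (hBK : Dep K fun ω => ω ∈ B) (Φ : Cfg → ℝ) :
    ∫ ω in B, Φ (S.cf ω) ∂μ = ∫ ω in B, (S.rv (R ω) ω).E Φ ∂μ := by
  classical
  have mB : MeasurableSet B := hBK.measurableSet
  have hY : Past R (B.indicator (1 : Cfg → ℝ)) := by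
    intro ω ω' h
    have h1 : (ω' ∈ B) = (ω ∈ B) := hB ω ω' h
    rw [Set.indicator_apply, Set.indicator_apply]
    simp only [h1, Pi.one_apply]
  have hYK : Dep K (B.indicator (1 : Cfg → ℝ)) := by
    intro ω ω' h
    have h1 : (ω ∈ B) = (ω' ∈ B) := hBK ω ω' h
    rw [Set.indicator_apply, Set.indicator_apply]
    simp only [h1, Pi.one_apply]
  have h := E_stop_past S hR Φ hY hYK
  rw [← integral_indicator mB, ← integral_indicator mB]
  have e1 : (B.indicator fun ω => Φ (S.cf ω)) = fun ω => B.indicator 1 ω * Φ (S.cf ω) := by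
    funext ω
    by_cases hω : ω ∈ B <;> simp [hω]
  have e2 : (B.indicator fun ω => (S.rv (R ω) ω).E Φ) =
      fun ω => B.indicator 1 ω * (S.rv (R ω) ω).E Φ := by
    funext ω
    by_cases hω : ω ∈ B <;> simp [hω]
  rw [e1, e2]
  exact h

/-- **revealing a stopping set**: a bound in every new state gives a bound on an event of the past -/
theorem rev_stop (S : St) {R : Cfg → Finset (ℤ × ℤ)} (hR : StopSet R) {K K' : Finset (ℤ × ℤ)}
    {B : Set Cfg} (hB : Past R fun ω => ω ∈ B) (hBK : Dep K fun ω => ω ∈ B) (hRK : Dep K' R)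
    (Φ : Cfg → ℝ) (Lv : Set Cfg) {a b : ℝ}
    (h : ∀ ω ∈ B, |(S.rv (R ω) ω).E Φ| ≤ a + b * (S.rv (R ω) ω).Pr Lv) :
    |∫ ω in B, Φ (S.cf ω) ∂μ| ≤ a * μ.real B + b * μ.real (B ∩ {ω | S.cf ω ∈ Lv}) := by
  classical
  have mB : MeasurableSet B := hBK.measurableSet
  have i1 : Integrable (fun ω => (S.rv (R ω) ω).E Φ) μ := (dep_rvE S hRK Φ).integrable
  have i2 : Integrable (fun ω => (S.rv (R ω) ω).Pr Lv) μ := by
    have : (fun ω => (S.rv (R ω) ω).Pr Lv) = fun ω => (S.rv (R ω) ω).E (Lv.indicator 1) := by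
      funext ω
      exact Pr_eq _ _
    rw [this]
    exact (dep_rvE S hRK _).integrable
  rw [setInt_rv S hR hB hBK Φ]
  calc |∫ ω in B, (S.rv (R ω) ω).E Φ ∂μ|
      ≤ ∫ ω in B, |(S.rv (R ω) ω).E Φ| ∂μ := abs_integral_le_integral_abs
    _ ≤ ∫ ω in B, (a + b * (S.rv (R ω) ω).Pr Lv) ∂μ := by
        refine setIntegral_mono_on i1.abs.integrableOn
          ((integrable_const a).add (i2.const_mul b)).integrableOn mB h
    _ = a * μ.real B + b * ∫ ω in B, (S.rv (R ω) ω).Pr Lv ∂μ := by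
        rw [integral_add (integrable_const a).integrableOn (i2.const_mul b).integrableOn,
          setIntegral_const, integral_const_mul, smul_eq_mul, mul_comm (μ.real B) a]
    _ = a * μ.real B + b * μ.real (B ∩ {ω | S.cf ω ∈ Lv}) := by
        congr 2
        have e1 : ∫ ω in B, (S.rv (R ω) ω).Pr Lv ∂μ =
            ∫ ω in B, (S.rv (R ω) ω).E (Lv.indicator 1) ∂μ := by
          refine integral_congr_ae (ae_of_all _ fun ω => ?_)
          exact Pr_eq _ _
        have mL : MeasurableSet {ω | S.cf ω ∈ Lv} := Dep.measurableSet (dep_cf S fun ξ => ξ ∈ Lv)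
        rw [e1, ← setInt_rv S hR hB hBK (Lv.indicator 1), ← integral_indicator mB,
          ← integral_indicator_one (mB.inter mL)]
        congr 1
        funext ω
        by_cases h1 : ω ∈ B <;> by_cases h2 : S.cf ω ∈ Lv
        · rw [Set.indicator_of_mem h1, Set.indicator_of_mem h2,
            Set.indicator_of_mem (show ω ∈ B ∩ {ω | S.cf ω ∈ Lv} from ⟨h1, h2⟩)]
          rfl
        · rw [Set.indicator_of_mem h1, Set.indicator_of_notMem h2,
            Set.indicator_of_notMem (show ω ∉ B ∩ {ω | S.cf ω ∈ Lv} from fun h => h2 h.2)]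
        · rw [Set.indicator_of_notMem h1,
            Set.indicator_of_notMem (show ω ∉ B ∩ {ω | S.cf ω ∈ Lv} from fun h => h1 h.1)]
        · rw [Set.indicator_of_notMem h1,
            Set.indicator_of_notMem (show ω ∉ B ∩ {ω | S.cf ω ∈ Lv} from fun h => h1 h.1)]

/-- **revealing a constant set** -/
theorem rev (S : St) (K : Finset (ℤ × ℤ)) {B : Set Cfg} (hB : Past (fun _ => K) fun ω => ω ∈ B)
    (Φ : Cfg → ℝ) (Lv : Set Cfg) {a b : ℝ}
    (h : ∀ ω ∈ B, |(S.rv K ω).E Φ| ≤ a + b * (S.rv K ω).Pr Lv) :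
    |∫ ω in B, Φ (S.cf ω) ∂μ| ≤ a * μ.real B + b * μ.real (B ∩ {ω | S.cf ω ∈ Lv}) :=
  rev_stop S (StopSet.const K) hB (Dep.of_past hB) (K' := ∅) (fun _ _ _ => rfl) Φ Lv h

/-- the squares at height `≥ h` of `F` and of its mirror image -/
def Up (S : St) (x h : ℤ) : Finset (ℤ × ℤ) := (S.F ∪ mF x S.F).filter fun q => h ≤ q.2

/-- events determined by the squares at height `≥ h` and by the squares of `F` and of its mirror
image -/
theorem past_Up {S : St} {x h : ℤ} {B : Set Cfg} (hB : Dep (S.F ∪ mF x S.F) fun ω => ω ∈ B)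
    (h' : ∀ ω ω' : Cfg, (∀ q : ℤ × ℤ, h ≤ q.2 → ω q = ω' q) → ω ∈ B → ω' ∈ B) :
    Past (fun _ => Up S x h) fun ω => ω ∈ B := by
  classical
  intro ω ω' hω
  -- an intermediate configuration
  set ω'' : Cfg := fun q => if h ≤ q.2 then ω q else ω' q with hω''
  have e1 : (ω'' ∈ B) = (ω' ∈ B) := by
    refine hB _ _ fun q hq => ?_
    by_cases hq' : h ≤ q.2
    · rw [hω'']
      dsimp only
      rw [if_pos hq']
      exact (hω q (Finset.mem_filter.2 ⟨hq, hq'⟩)).symm
    · rw [hω'']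
      dsimp only
      rw [if_neg hq']
  have e2 : (ω'' ∈ B) = (ω ∈ B) := by
    apply propext
    constructor
    · refine h' _ _ fun q hq => ?_
      rw [hω'']
      dsimp only
      rw [if_pos hq]
    · refine h' _ _ fun q hq => ?_
      rw [hω'']
      dsimp only
      rw [if_pos hq]
  show (ω' ∈ B) = (ω ∈ B)
  rw [← e1, e2]

/-- the new state is of type `TA` with exactly the low zone fresh -/
theorem TA_Up {S : St} {u w H x h : ℤ} (hok : S.Ok) (hfl : Flat S.D u w h)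
    (hF : ∀ v ∈ S.F, v ∈ Lo u w H) (hL : ∀ v ∈ Lo u w h, v ∈ S.F) (ω : Cfg) :
    TA (S.rv (Up S x h) ω) u w h ∧ ∀ v ∈ (S.rv (Up S x h) ω).F, v ∈ Lo u w h := by
  refine ⟨⟨rv_ok hok _ _, hfl, fun v hv => ?_⟩, fun v hv => ?_⟩
  · refine Finset.mem_sdiff.2 ⟨hL v hv, fun h1 => ?_⟩
    have h2 := (Finset.mem_filter.1 h1).2
    have h3 := hv.2.2.2
    omega
  · obtain ⟨h1, h2⟩ := Finset.mem_sdiff.1 hv
    have h3 := hF v h1
    refine ⟨h3.1, h3.2.1, h3.2.2.1, ?_⟩
    by_contra hcon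
    exact h2 (Finset.mem_filter.2 ⟨Finset.mem_union_left _ h1, not_lt.1 hcon⟩)

end Vale.Agent.P167.H318
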